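import Crest.Agent.N337.Gas.Lab

/-!
# Row 337, block (c): interface of the peel on a gas (helper78, note h78-1)

`q` compatibility weights, `u` weight of the medium, `D` weight of the top colour.
`TK` is the linear Turán–Kubilius bound in a medium, `PeelStmt` the peel of the top colour.
-/

set_option autoImplicit false
set_option linter.unusedSectionVars false

namespace Crest.Agent.N337.Pc

open Finset Crest.Agent.N337.Op Crest.Agent.N337.Gas

section defs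
variable {Γ : Type} [Fintype Γ] [DecidableEq Γ]

/-- probability that `g` is an up loop given the down loops `w`. -/
noncomputable def up (q : Finset Γ → ℝ) (w : Finset Γ) (g : Γ) : ℝ :=
  if g ∈ w then 0 else sh q w {g}
/-- probability that `g` and `g'` are up loops given `w`. -/
noncomputable def up2 (q : Finset Γ → ℝ) (w : Finset Γ) (g g' : Γ) : ℝ :=
  if g ∈ w ∨ g' ∈ w then 0 else sh q w {g, g'}
/-- `E[∑ al g 1{g up} | w]`. -/
noncomputable def Phb (q : Finset Γ → ℝ) (al : Γ → ℝ) (w : Finset Γ) : ℝ := ∑ g, al g * up q w g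
/-- off-diagonal part of `Var (∑ al g 1{g up} | w)`. -/
noncomputable def Off (q : Finset Γ → ℝ) (al : Γ → ℝ) (w : Finset Γ) : ℝ :=
  ∑ g, ∑ g' ∈ univ.erase g, al g * al g' * (up2 q w g g' - up q w g * up q w g')
/-- `∑ c g P(g up)`. -/
noncomputable def Nm (q : Finset Γ → ℝ) (u c : Γ → ℝ) : ℝ := ex (nu q u) (Phb q c)

/-- **linear Turán–Kubilius bound** in the medium `nu q u` for tests supported in `S`. -/
structure TK (q : Finset Γ → ℝ) (u D : Γ → ℝ) (S : Γ → Prop) (κ : ℝ) : Prop where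
  a : ∀ a : Γ → ℝ, (∀ g, a g ≠ 0 → S g) →
    ex (nu q u) (Off q fun g => a g * D g) ≤
      ∑ g, (a g * D g) ^ 2 * ex (nu q u) (fun w => up q w g ^ 2) +
        κ * Nm q u fun g => a g ^ 2 * D g
  b : ∀ a : Γ → ℝ, (∀ g, a g ≠ 0 → S g) →
    var (nu q u) (Phb q fun g => a g * D g) ≤ κ * Nm q u fun g => a g ^ 2 * D g

/-- probability that `g` is an up loop. -/
noncomputable def P1 (q : Finset Γ → ℝ) (u : Γ → ℝ) (g : Γ) : ℝ := ex (nu q u) fun w => up q w g
/-- probability that `g` and `g'` are up loops. -/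
noncomputable def P2 (q : Finset Γ → ℝ) (u : Γ → ℝ) (g g' : Γ) : ℝ :=
  ex (nu q u) fun w => up2 q w g g'
/-- annealed off-diagonal covariance form. -/
noncomputable def Bf (q : Finset Γ → ℝ) (u al al' : Γ → ℝ) : ℝ :=
  ∑ g, ∑ g' ∈ univ.erase g, al g * al' g' * (P2 q u g g' - P1 q u g * P1 q u g')
/-- total form of the bound. -/
def TKt (q : Finset Γ → ℝ) (u D : Γ → ℝ) (S : Γ → Prop) (κ : ℝ) : Prop :=
  ∀ a : Γ → ℝ, (∀ g, a g ≠ 0 → S g) →
    Bf q u (fun g => a g * D g) (fun g => a g * D g) ≤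
      ∑ g, (a g * D g) ^ 2 * P1 q u g ^ 2 + κ * Nm q u fun g => a g ^ 2 * D g
/-- response form of the bound. -/
def TKb (q : Finset Γ → ℝ) (u D : Γ → ℝ) (S : Γ → Prop) (κ : ℝ) : Prop :=
  ∀ a : Γ → ℝ, (∀ g, a g ≠ 0 → S g) →
    var (nu q u) (Phb q fun g => a g * D g) ≤ κ * Nm q u fun g => a g ^ 2 * D g

/-- the law of the medium given the top colour `A`. -/
noncomputable def med (q : Finset Γ → ℝ) (u : Γ → ℝ) (A : Finset Γ) : Finset Γ → ℝ :=
  nu (sh q A) (off (· ∈ A) u)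

variable {Ξ : Type} [Fintype Ξ]

/-- compatibility weights of a random set `L`. -/
noncomputable def qP (P : Ξ → ℝ) (L : Ξ → Finset Γ) (A : Finset Γ) : ℝ :=
  ∑ ξ, P ξ * if A ⊆ L ξ then 1 else 0
/-- independent marks: the elements of `X` are marked with probability `D`. -/
def bw (D : Γ → ℝ) (X B : Finset Γ) : ℝ := (∏ g ∈ B, D g) * ∏ g ∈ X \ B, (1 - D g)
/-- mean of `f (marked up loops)` given that `x` is present. -/
noncomputable def mkE (P : Ξ → ℝ) (L : Ξ → Finset Γ) (D : Γ → ℝ) (x : Finset Γ)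
    (f : Finset Γ → ℝ) : ℝ :=
  (∑ ξ, P ξ * if x ⊆ L ξ then ∑ B ∈ (L ξ \ x).powerset, bw D (L ξ \ x) B * f B else 0) / qP P L x
/-- mean of `f B` given the top colour `A` (medium resampled, then marks). -/
noncomputable def kB (P : Ξ → ℝ) (L : Ξ → Finset Γ) (u D : Γ → ℝ) (A : Finset Γ)
    (f : Finset Γ → ℝ) : ℝ :=
  ex (med (qP P L) u A) fun w => mkE P L D (A ∪ w) f

/-- two colours: `true` = top colour. -/
def two (u D : Γ → ℝ) (y : Γ × Bool) : ℝ := if y.2 = true then D y.1 else u y.1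
/-- the labelled polymers of the top colour. -/
def hi (X : Finset (Γ × Bool)) : Finset (Γ × Bool) := X.filter fun y => y.2 = true
/-- birth-death form of the top colour. -/
def Dhi (μ F : Finset (Γ × Bool) → ℝ) : ℝ :=
  ex μ fun X => ∑ y ∈ hi X, (F X - F (X.erase y)) ^ 2

open Classical in
/-- hypotheses of the peel: ladder `G 0 ⊆ … ⊆ G (n+1)`, (H1), (H2), (TK). -/
structure Lad (P : Ξ → ℝ) (L : Ξ → Finset Γ) (u D : Γ → ℝ) (G : ℕ → Finset Γ → Prop) (n : ℕ)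
    (ε κ κb : ℝ) : Prop where
  pr : Pr P
  u0 : ∀ g, 0 ≤ u g
  D0 : ∀ g, 0 ≤ D g
  D1 : ∀ g, D g ≤ 1
  down : ∀ i A B, B ⊆ A → G i A → G i B
  mono : ∀ i A, G i A → G (i + 1) A
  h1 : ∀ i ≤ n, ∀ A, G i A → qP P L A ≠ 0 → (∀ g ∈ A, D g ≠ 0) →
    kB P L u D A (ind fun B => ¬ G (i + 1) (A ∪ B)) ≤ ε
  h2 : ∀ A, G n A → qP P L A ≠ 0 → (∀ g ∈ A, D g ≠ 0) → kB P L u D A (ind fun B => ¬ G 0 B) ≤ ε
  tkt : ∀ A, G (n + 1) A → qP P L A ≠ 0 → (∀ g ∈ A, D g ≠ 0) →
    TKt (sh (qP P L) A) (off (· ∈ A) u) (off (· ∈ A) D) (fun g => G (n + 1) (insert g A)) κ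
  tkb : ∀ A, G (n + 1) A → qP P L A ≠ 0 → (∀ g ∈ A, D g ≠ 0) →
    TKb (sh (qP P L) A) (off (· ∈ A) u) (off (· ∈ A) D) (fun g => G (n + 1) (insert g A)) κb

end defs

open Classical in
/-- **(Peel)** the conditional mean given the top colour. -/
def PeelStmt : Prop :=
  ∀ (Γ Ξ : Type) [Fintype Γ] [DecidableEq Γ] [Fintype Ξ] (P : Ξ → ℝ) (L : Ξ → Finset Γ)
    (u D : Γ → ℝ) (G : ℕ → Finset Γ → Prop) (κb : ℝ), 0 ≤ κb →
    Lad P L u D G 26 (1 / 10 ^ 9) (1 / 5) κb → ∀ (F : Finset (Γ × Bool) → ℝ) (c : ℝ),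
      let μ := nu (qL (qP P L)) (two u D)
      let S := ind fun X : Finset (Γ × Bool) => ¬ G 0 (fg (hi X))
      var μ (ap (ce μ hi) F) ≤ 22 * Dhi μ F + 22 * κb * nsq μ (fun X => F X - ap (ce μ hi) F X) +
        200 * ex μ fun X => (ex μ S + S X) * (F X - c) ^ 2

end Crest.Agent.N337.Pc
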