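import Crest.Agent.N337.Pc.Forms

/-!
# Row 337, block (c): sparse families of tests (helper78)
-/

set_option autoImplicit false
set_option linter.unusedSectionVars false

namespace Crest.Agent.N337.Pc

open Finset Crest.Agent.N337.Op Crest.Agent.N337.Gas

variable {Γ : Type} [Fintype Γ] [DecidableEq Γ] {q : Finset Γ → ℝ} {u D : Γ → ℝ}

/-! ### sparse families -/

lemma Bf_add_left (q : Finset Γ → ℝ) (u a b c : Γ → ℝ) :
    Bf q u (fun g => a g + b g) c = Bf q u a c + Bf q u b c := by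
  unfold Bf; simp only [add_mul, sum_add_distrib]

lemma Bf_add_right (q : Finset Γ → ℝ) (u a b c : Γ → ℝ) :
    Bf q u c (fun g => a g + b g) = Bf q u c a + Bf q u c b := by
  unfold Bf; simp only [mul_add, add_mul, sum_add_distrib]

lemma sum_erase_comm (f : Γ → Γ → ℝ) :
    ∑ g, ∑ g' ∈ univ.erase g, f g g' = ∑ g', ∑ g ∈ univ.erase g', f g g' := by
  refine sum_comm' fun g g' => ?_
  simp [eq_comm]

lemma Bf_comm (q : Finset Γ → ℝ) (u a b : Γ → ℝ) : Bf q u a b = Bf q u b a := by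
  unfold Bf; rw [sum_erase_comm]
  exact sum_congr rfl fun g _ => sum_congr rfl fun g' _ => by rw [P2_comm q u g' g]; ring

open Classical in
/-- rate of the family `S'` next to the up loop `g`. -/
noncomputable def Rt (q : Finset Γ → ℝ) (u D : Γ → ℝ) (S' : Γ → Prop) (g : Γ) : ℝ :=
  ∑ g' ∈ univ.erase g, if S' g' then D g' * (P2 q u g g' + P1 q u g * P1 q u g') else 0

/-- Schur test. -/
lemma Bf_le (hq : Cpt q) (hu : ∀ g, 0 ≤ u g) (hD : ∀ g, 0 ≤ D g) {S S' : Γ → Prop} {x y θ : ℝ}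
    (hθ : 0 < θ) (hx : ∀ g, S g → Rt q u D S' g ≤ x * P1 q u g)
    (hy : ∀ g, S' g → Rt q u D S g ≤ y * P1 q u g) {a a' : Γ → ℝ} (ha : ∀ g, a g ≠ 0 → S g)
    (ha' : ∀ g, a' g ≠ 0 → S' g) :
    2 * Bf q u (fun g => a g * D g) (fun g => a' g * D g) ≤
      θ * x * Nm q u (fun g => a g ^ 2 * D g) + y / θ * Nm q u fun g => a' g ^ 2 * D g := by
  classical
  have key : ∀ g g', 2 * (a g * D g * (a' g' * D g') * (P2 q u g g' - P1 q u g * P1 q u g')) ≤
      θ * (a g ^ 2 * D g) * (if S' g' then D g' * (P2 q u g g' + P1 q u g * P1 q u g') else 0) +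
      1 / θ * (a' g' ^ 2 * D g') *
        (if S g then D g * (P2 q u g' g + P1 q u g' * P1 q u g) else 0) := fun g g' => by
    have hp := mul_nonneg (P1_nn hq hu g) (P1_nn hq hu g')
    have hp2 := P2_nn hq hu g g'
    have n1 : 0 ≤ θ * (a g ^ 2 * D g) *
        (if S' g' then D g' * (P2 q u g g' + P1 q u g * P1 q u g') else 0) := by
      refine mul_nonneg (mul_nonneg hθ.le (mul_nonneg (sq_nonneg _) (hD g))) ?_
      split_ifs; exacts [mul_nonneg (hD _) (add_nonneg hp2 hp), le_rfl]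
    have n2 : 0 ≤ 1 / θ * (a' g' ^ 2 * D g') *
        (if S g then D g * (P2 q u g' g + P1 q u g' * P1 q u g) else 0) := by
      refine mul_nonneg (mul_nonneg (by positivity) (mul_nonneg (sq_nonneg _) (hD g'))) ?_
      split_ifs
      · exact mul_nonneg (hD _) (add_nonneg (P2_nn hq hu _ _) (by rwa [mul_comm]))
      · exact le_rfl
    by_cases h1 : a g = 0
    · rw [h1] at n1 ⊢; simp only [zero_mul, mul_zero]; linarith
    by_cases h2 : a' g' = 0
    · rw [h2] at n2 ⊢; simp only [zero_mul, mul_zero]; linarith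
    rw [if_pos (ha g h1), if_pos (ha' g' h2), P2_comm q u g' g, mul_comm (P1 q u g')]
    have hd := mul_nonneg (hD g) (hD g')
    have s1 : 0 ≤ θ * a g ^ 2 + 1 / θ * a' g' ^ 2 - 2 * (a g * a' g') := by
      have : θ * a g ^ 2 + 1 / θ * a' g' ^ 2 - 2 * (a g * a' g') = (θ * a g - a' g') ^ 2 / θ := by
        field_simp; ring
      rw [this]; positivity
    have s2 : 0 ≤ θ * a g ^ 2 + 1 / θ * a' g' ^ 2 + 2 * (a g * a' g') := by
      have : θ * a g ^ 2 + 1 / θ * a' g' ^ 2 + 2 * (a g * a' g') = (θ * a g + a' g') ^ 2 / θ := by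
        field_simp; ring
      rw [this]; positivity
    nlinarith [mul_nonneg (mul_nonneg hd hp2) s1, mul_nonneg (mul_nonneg hd hp) s2]
  have h1 : ∀ g, a g ^ 2 * D g * Rt q u D S' g ≤ x * (a g ^ 2 * D g * P1 q u g) := fun g => by
    by_cases h0 : a g = 0
    · simp [h0]
    nlinarith [mul_le_mul_of_nonneg_left (hx g (ha g h0)) (mul_nonneg (sq_nonneg (a g)) (hD g))]
  have h2 : ∀ g, a' g ^ 2 * D g * Rt q u D S g ≤ y * (a' g ^ 2 * D g * P1 q u g) := fun g => by
    by_cases h0 : a' g = 0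
    · simp [h0]
    nlinarith [mul_le_mul_of_nonneg_left (hy g (ha' g h0)) (mul_nonneg (sq_nonneg (a' g)) (hD g))]
  calc 2 * Bf q u (fun g => a g * D g) (fun g => a' g * D g)
      ≤ θ * ∑ g, a g ^ 2 * D g * Rt q u D S' g + 1 / θ * ∑ g, a' g ^ 2 * D g * Rt q u D S g := by
        unfold Bf Rt
        simp only [mul_sum]
        rw [sum_erase_comm fun g g' => 1 / θ * (a' g ^ 2 * D g * _), ← sum_add_distrib]
        refine sum_le_sum fun g _ => ?_
        rw [← sum_add_distrib]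
        refine sum_le_sum fun g' _ => ?_
        have := key g g'
        linarith
    _ ≤ θ * ∑ g, x * (a g ^ 2 * D g * P1 q u g) + 1 / θ * ∑ g, y * (a' g ^ 2 * D g * P1 q u g) :=
        add_le_add (mul_le_mul_of_nonneg_left (sum_le_sum fun g _ => h1 g) hθ.le)
          (mul_le_mul_of_nonneg_left (sum_le_sum fun g _ => h2 g) (by positivity))
    _ = _ := by rw [Nm_eq, Nm_eq, ← mul_sum, ← mul_sum]; ring

lemma Rt_mono (hq : Cpt q) (hu : ∀ g, 0 ≤ u g) (hD : ∀ g, 0 ≤ D g) {S S' : Γ → Prop}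
    (h : ∀ g, S g → S' g) (g : Γ) : Rt q u D S g ≤ Rt q u D S' g := by
  refine sum_le_sum fun g' _ => ?_
  by_cases h1 : S g'
  · rw [if_pos h1, if_pos (h _ h1)]
  · rw [if_neg h1]; split_ifs
    · exact mul_nonneg (hD _) (add_nonneg (P2_nn hq hu _ _)
        (mul_nonneg (P1_nn hq hu _) (P1_nn hq hu _)))
    · exact le_rfl

lemma Rep.Rt_le {n : ℕ} {Q : Finset Γ} (hq : Rep q Q n) (hu : ∀ g, 0 ≤ u g)
    (hD : ∀ g, 0 ≤ D g ∧ D g ≤ 1) (hQ : ∀ g, D g ≠ 0 → g ∈ Q)
    (S : Γ → Prop) (g : Γ) : Rt q u D S g ≤ 2 * n * P1 q u g := by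
  classical
  have hc := hq.cpt
  have nn : ∀ g', 0 ≤ P2 q u g g' + P1 q u g * P1 q u g' := fun g' =>
    add_nonneg (P2_nn hc hu _ _) (mul_nonneg (P1_nn hc hu _) (P1_nn hc hu _))
  calc Rt q u D S g ≤ ∑ g' ∈ univ.erase g,
        if g' ∈ Q then (P2 q u g g' + P1 q u g * P1 q u g') else 0 :=
        sum_le_sum fun g' _ => by
          by_cases h0 : D g' = 0
          · rw [h0, zero_mul, ite_self]; split_ifs; exacts [nn g', le_rfl]
          rw [if_pos (hQ g' h0)]
          split_ifs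
          · exact mul_le_of_le_one_left (nn g') (hD g').2
          · exact nn g'
    _ ≤ ∑ g', if g' ∈ Q then (P2 q u g g' + P1 q u g * P1 q u g') else 0 :=
        sum_le_sum_of_subset_of_nonneg (erase_subset _ _) fun g' _ _ => by
          split_ifs; exacts [nn g', le_rfl]
    _ ≤ _ := by
        rw [← sum_filter, filter_mem_eq_inter, univ_inter, sum_add_distrib, ← mul_sum]
        nlinarith [hq.sum_P2_le hu g, mul_le_mul_of_nonneg_left (hq.sum_P1_le hu) (P1_nn hc hu g)]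

open Classical in
/-- the rate in terms of the two models (without and with `g`). -/
lemma Rt_le (hq : Cpt q) (hu : ∀ g, 0 ≤ u g) (hD : ∀ g, 0 ≤ D g) (S : Γ → Prop) (g : Γ) {x : ℝ}
    (h0 : Nm q u (fun g' => if S g' then D g' else 0) ≤ x)
    (h1 : q {g} ≠ 0 → Nm (sh q {g}) (off (· ∈ ({g} : Finset Γ)) u)
      (fun g' => if S g' ∧ g' ≠ g then D g' else 0) ≤ x) :
    Rt q u D S g ≤ 2 * x * P1 q u g := by
  have hp := P1_nn hq hu g
  by_cases hg : q {g} = 0
  · have : P1 q u g = 0 := by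
      have := sum_up (u := u) hq g fun _ => 1
      simp only [mul_one, hg, zero_mul] at this
      rw [P1, ex_nu, this, zero_div]
    simp [Rt, P2_eq hq hu, this]
  have h2 := h1 hg
  rw [Nm_eq] at h0 h2
  have e : Rt q u D S g = P1 q u g * (∑ g', (if S g' ∧ g' ≠ g then D g' else 0) *
      P1 (sh q {g}) (off (· ∈ ({g} : Finset Γ)) u) g' +
      ∑ g' ∈ univ.erase g, (if S g' then D g' else 0) * P1 q u g') := by
    rw [← add_sum_erase _ _ (mem_univ g), if_neg (by simp), zero_mul, zero_add,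
      ← sum_add_distrib, mul_sum]
    refine sum_congr rfl fun g' hg' => ?_
    by_cases h : S g'
    · simp only [h, ne_of_mem_erase hg', ne_eq, not_false_eq_true, and_self, if_true, P2_eq hq hu]
      ring
    · simp [h]
  have h3 : ∑ g' ∈ univ.erase g, (if S g' then D g' else 0) * P1 q u g' ≤
      ∑ g', (if S g' then D g' else 0) * P1 q u g' :=
    sum_le_sum_of_subset_of_nonneg (erase_subset _ _) fun g' _ _ =>
      mul_nonneg (by split_ifs; exacts [hD _, le_rfl]) (P1_nn hq hu _)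
  rw [e]
  nlinarith [mul_le_mul_of_nonneg_left (add_le_add h2 (h3.trans h0)) hp]

/-- **dirty tests**: `S0` clean, `S2` very dirty; the tests off `S0` form a sparse family. -/
theorem dirty {n : ℕ} {Q : Finset Γ} (hq : Rep q Q n) (hu : ∀ g, 0 ≤ u g)
    (hD : ∀ g, 0 ≤ D g ∧ D g ≤ 1) (hQ : ∀ g, D g ≠ 0 → g ∈ Q)
    {S S0 S2 : Γ → Prop} {κ0 κ ε : ℝ} (hκ0 : 0 ≤ κ0) (hκ : 0 < κ)
    (hn : 2 * n * ε ≤ κ ^ 2) (h02 : ∀ g, S0 g → ¬ S2 g)
    (h01 : TKt q u D (fun g => S g ∧ ¬ S2 g) κ0)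
    (d1 : ∀ g, S g → ¬ S0 g → Rt q u D (fun g => S g ∧ ¬ S0 g) g ≤ κ * P1 q u g)
    (d2 : ∀ g, S g → S0 g → Rt q u D (fun g => S g ∧ S2 g) g ≤ ε * P1 q u g) :
    TKt q u D S (κ0 + 5 * κ) := fun a ha => by
  classical
  have hc := hq.cpt
  have hD0 := fun g => (hD g).1
  set a0 : Γ → ℝ := fun g => if S0 g then a g else 0 with ha0
  set a2 : Γ → ℝ := fun g => if S2 g then a g else 0 with ha2
  set a1 : Γ → ℝ := fun g => if S0 g ∨ S2 g then 0 else a g with ha1
  have s0 : ∀ g, a0 g ≠ 0 → S g ∧ S0 g := fun g hg => by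
    by_cases h : S0 g
    · exact ⟨ha g (by simpa [ha0, h] using hg), h⟩
    · simp [ha0, h] at hg
  have s2 : ∀ g, a2 g ≠ 0 → S g ∧ S2 g := fun g hg => by
    by_cases h : S2 g
    · exact ⟨ha g (by simpa [ha2, h] using hg), h⟩
    · simp [ha2, h] at hg
  have s1 : ∀ g, a1 g ≠ 0 → S g ∧ ¬ S0 g ∧ ¬ S2 g := fun g hg => by
    by_cases h : S0 g ∨ S2 g
    · simp [ha1, h] at hg
    · exact ⟨ha g (by simpa [ha1, h] using hg), not_or.1 h⟩
  have s2' : ∀ g, a2 g ≠ 0 → S g ∧ ¬ S0 g := fun g hg =>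
    ⟨(s2 g hg).1, fun h => h02 g h (s2 g hg).2⟩
  have s1' : ∀ g, a1 g ≠ 0 → S g ∧ ¬ S0 g := fun g hg => ⟨(s1 g hg).1, (s1 g hg).2.1⟩
  have e : (fun g => a g * D g) = fun g => (a0 g * D g + a1 g * D g) + a2 g * D g := by
    funext g
    by_cases h0 : S0 g
    · simp [ha0, ha1, ha2, h0, h02 g h0]
    · by_cases h2 : S2 g <;> simp [ha0, ha1, ha2, h0, h2]
  have le : ∀ b : Γ → ℝ, (∀ g, b g = a g ∨ b g = 0) →
      Nm q u (fun g => b g ^ 2 * D g) ≤ Nm q u fun g => a g ^ 2 * D g := fun b hb =>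
    Nm_mono hc hu fun g => by
      rcases hb g with h | h <;> rw [h]
      simpa using mul_nonneg (sq_nonneg (a g)) (hD0 g)
  have l0 := le a0 fun g => by simp only [ha0]; split_ifs <;> simp
  have l1 := le a1 fun g => by simp only [ha1]; split_ifs <;> simp
  have l2 := le a2 fun g => by simp only [ha2]; split_ifs <;> simp
  have l01 := le (fun g => a0 g + a1 g) fun g => by
    by_cases h0 : S0 g
    · simp [ha0, ha1, h0]
    · by_cases h2 : S2 g <;> simp [ha0, ha1, h0, h2]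
  have t01 := h01 (fun g => a0 g + a1 g) fun g hg => by
    by_cases h : a0 g = 0
    · have := s1 g (by simpa [h] using hg); exact ⟨this.1, this.2.2⟩
    · exact ⟨(s0 g h).1, h02 g (s0 g h).2⟩
  have t12 := Bf_le hc hu hD0 one_pos (fun g h => d1 g h.1 h.2) (fun g h => d1 g h.1 h.2) s1' s2'
  have t22 := Bf_le hc hu hD0 one_pos (fun g h => d1 g h.1 h.2) (fun g h => d1 g h.1 h.2) s2' s2'
  have hN := Nm_nn hc hu fun g => mul_nonneg (sq_nonneg (a g)) (hD0 g)
  have t02 : 2 * Bf q u (fun g => a0 g * D g) (fun g => a2 g * D g) ≤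
      2 * κ * Nm q u fun g => a g ^ 2 * D g := by
    rcases Nat.eq_zero_or_pos n with rfl | hn0
    · have := Bf_le hc hu hD0 one_pos (fun g (_ : S g ∧ S0 g) => hq.Rt_le hu hD hQ _ g)
        (fun g (_ : S g ∧ S2 g) => hq.Rt_le hu hD hQ _ g) s0 s2
      simp only [Nat.cast_zero, mul_zero, zero_mul, zero_div, add_zero] at this
      exact this.trans (by positivity)
    have hn1 : (0 : ℝ) < n := by exact_mod_cast hn0
    have := Bf_le hc hu hD0 (θ := 2 * n / κ) (by positivity) (fun g (h : S g ∧ S0 g) => d2 g h.1 h.2)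
      (fun g (_ : S g ∧ S2 g) => hq.Rt_le hu hD hQ _ g) s0 s2
    have c1 : 2 * n / κ * ε ≤ κ := by rw [div_mul_eq_mul_div, div_le_iff₀ hκ]; nlinarith
    have c2 : 2 * (n : ℝ) / (2 * n / κ) = κ := by field_simp
    rw [c2] at this
    have n0 := Nm_nn hc hu fun g => mul_nonneg (sq_nonneg (a0 g)) (hD0 g)
    nlinarith [mul_le_mul_of_nonneg_right c1 n0, mul_le_mul_of_nonneg_left l0 hκ.le,
      mul_le_mul_of_nonneg_left l2 hκ.le]
  have l3 : ∑ g, ((a0 g + a1 g) * D g) ^ 2 * P1 q u g ^ 2 ≤ ∑ g, (a g * D g) ^ 2 * P1 q u g ^ 2 :=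
    sum_le_sum fun g _ => by
      by_cases h0 : S0 g
      · simp [ha0, ha1, h0]
      · by_cases h2 : S2 g
        · simp only [ha0, ha1, h0, h2, if_false, or_true, if_true, add_zero, zero_mul]
          rw [zero_pow two_ne_zero, zero_mul]; positivity
        · simp [ha0, ha1, h0, h2]
  have e01 : (fun g => (a0 g + a1 g) * D g) = fun g => a0 g * D g + a1 g * D g := by
    funext g; ring
  rw [e01] at t01
  rw [e, Bf_add_left q u (fun g => a0 g * D g + a1 g * D g) (fun g => a2 g * D g),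
    Bf_add_right q u (fun g => a0 g * D g + a1 g * D g) (fun g => a2 g * D g),
    Bf_add_right q u (fun g => a0 g * D g + a1 g * D g) (fun g => a2 g * D g),
    Bf_comm q u (fun g => a2 g * D g) (fun g => a0 g * D g + a1 g * D g),
    Bf_add_left q u (fun g => a0 g * D g) (fun g => a1 g * D g) (fun g => a2 g * D g)]
  simp only [one_mul, div_one] at t12 t22
  nlinarith [mul_le_mul_of_nonneg_left l01 hκ0, mul_le_mul_of_nonneg_left l1 hκ.le,
    mul_le_mul_of_nonneg_left l2 hκ.le]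

end Crest.Agent.N337.Pc
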