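import Crest.Agent.N337.Pc.Add
import Crest.Agent.N337.Pc.Sparse
import Crest.Agent.N337.TK.Defs

/-!
# Row 337, block (c): the interface of the peel in the loop model (helper78)
-/

set_option autoImplicit false
set_option linter.unusedSectionVars false

namespace Crest.Agent.N337.Pc

open Finset Crest.Agent.N337.Op Crest.Agent.N337.Gas Crest.Agent.N337.Rep Crest.Agent.N337.LY0

section gen
variable {Γ : Type} [Fintype Γ] [DecidableEq Γ] {q : Finset Γ → ℝ} {Ξ : Type} [Fintype Ξ]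
  [DecidableEq Ξ] {P : Ξ → ℝ} {L : Ξ → Finset Γ} {w : Finset Γ}

lemma sum_off_eq (w X : Finset Γ) (al : Γ → ℝ) : ∑ g ∈ X, off (· ∈ w) al g =
    ∑ g, al g * if g ∈ w then 0 else if g ∈ X then 1 else 0 := by
  rw [← univ_inter X, ← sum_ite_mem]
  refine sum_congr rfl fun g _ => ?_
  by_cases h1 : g ∈ w <;> by_cases h2 : g ∈ X <;> simp [off, h1, h2]

lemma up_eq (e : sh q w = qP P L) (g : Γ) :
    up q w g = ex P fun ξ => if g ∈ w then 0 else if g ∈ L ξ then 1 else 0 := by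
  unfold up; rw [e]; split_ifs <;> simp [ex, qP]

lemma up2_eq' (e : sh q w = qP P L) (g g' : Γ) : up2 q w g g' = ex P fun ξ =>
    (if g ∈ w then 0 else if g ∈ L ξ then 1 else 0) *
      if g' ∈ w then 0 else if g' ∈ L ξ then 1 else 0 := by
  unfold up2; rw [e]
  by_cases hg : g ∈ w
  · simp [hg, ex]
  by_cases hg' : g' ∈ w
  · simp [hg', ex]
  simp only [hg, hg', or_self, if_false, qP, ex]
  refine sum_congr rfl fun ξ _ => ?_
  by_cases h1 : g ∈ L ξ <;> by_cases h2 : g' ∈ L ξ <;> simp [h1, h2, insert_subset_iff]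

lemma ex_qP (e : sh q w = qP P L) (al : Γ → ℝ) :
    ex P (fun ξ => ∑ g ∈ L ξ, off (· ∈ w) al g) = Phb q al w := by
  simp only [sum_off_eq]
  rw [ex_sum', Phb]
  exact sum_congr rfl fun g _ => by rw [ex_mul, up_eq e]

lemma var_qP (hP : Pr P) (e : sh q w = qP P L) (al : Γ → ℝ) :
    var P (fun ξ => ∑ g ∈ L ξ, off (· ∈ w) al g) =
      Off q al w + ∑ g, al g ^ 2 * (up q w g - up q w g ^ 2) := by
  set I : Γ → Ξ → ℝ := fun g ξ => if g ∈ w then 0 else if g ∈ L ξ then 1 else 0 with hI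
  have h3 : ∀ g ξ, I g ξ ^ 2 = I g ξ := fun g ξ => by simp only [hI]; split_ifs <;> norm_num
  rw [hP.var_eq, ex_qP e, nsq_eq_ex, Phb, sq_sum_split]
  simp only [sum_off_eq, sq_sum_split]
  rw [ex_add, ex_sum', ex_sum']
  have e1 : ∀ g, ex P (fun ξ => (al g * I g ξ) ^ 2) = al g ^ 2 * up q w g := fun g => by
    rw [up_eq e, ← ex_mul]; congr 1; funext ξ; rw [mul_pow, h3]
  have e2 : ∀ g, ex P (fun ξ => ∑ g' ∈ univ.erase g, al g * I g ξ * (al g' * I g' ξ)) =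
      ∑ g' ∈ univ.erase g, al g * al g' * up2 q w g g' := fun g => by
    rw [ex_sum']
    exact sum_congr rfl fun g' _ => by rw [up2_eq' e, ← ex_mul]; congr 1; funext ξ; ring
  have e4 : ∑ g, ∑ g' ∈ univ.erase g, al g * up q w g * (al g' * up q w g') =
      ∑ g, ∑ g' ∈ univ.erase g, al g * al g' * (up q w g * up q w g') :=
    sum_congr rfl fun g _ => sum_congr rfl fun g' _ => by ring
  have e5 : ∑ g, (al g * up q w g) ^ 2 = ∑ g, al g ^ 2 * up q w g ^ 2 :=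
    sum_congr rfl fun g _ => by ring
  simp only [hI] at e1 e2
  simp only [e1, e2, e4, e5, Off, mul_sub, sum_sub_distrib]
  ring

end gen

variable {Λ : Type} [Fintype Λ] [DecidableEq Λ] {T : ℕ} [NeZero T] {ex ey : Fin T → Λ}
  {p : Fin T → ℝ} {u D : Lp T Λ → ℝ} {w : Finset (Lp T Λ)}

lemma pr_Pw (hp : ∀ s, 0 ≤ p s ∧ p s ≤ 1) : Pr (Pw p) := ⟨Pw_nonneg hp, sum_Pw p⟩

lemma qq_eq_qP (ex ey : Fin T → Λ) (p : Fin T → ℝ) : qq ex ey p = qP (Pw p) (L ex ey) := rfl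

lemma up_qq (h : qq ex ey p w ≠ 0) (g : Lp T Λ) : up (qq ex ey p) w g = TK.Up ex ey p w g := by
  rw [up, sh_qq h]; rfl

lemma U_eq (h : qq ex ey p w ≠ 0) (c : Lp T Λ → ℝ) : TK.U ex ey p c w = Phb (qq ex ey p) c w :=
  ex_qP (sh_qq h) c

lemma ex_U (c : Lp T Λ → ℝ) :
    Op.ex (nu (qq ex ey p) u) (TK.U ex ey p c) = Nm (qq ex ey p) u c :=
  ex_congr fun _ hw => U_eq (nu_supp hw).1 c

/-- the two bounds of block TK give the interface bound. -/
theorem tk_of {S : Lp T Λ → Prop} {κ : ℝ} (hp : ∀ s, 0 ≤ p s ∧ p s ≤ 1)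
    (ha : TK.TKa ex ey p u D S κ) (hb : TK.TKb ex ey p u D S κ) : TK (qq ex ey p) u D S κ where
  a a h := by
    have h1 := ha a h
    have e0 : (Op.ex (nu (qq ex ey p) u) fun w =>
        var (Pw (pin ex ey p w)) (TK.Ph ex ey (off (· ∈ w) fun g => a g * D g))) =
        Op.ex (nu (qq ex ey p) u) fun w => Off (qq ex ey p) (fun g => a g * D g) w +
          ∑ g, (a g * D g) ^ 2 * (up (qq ex ey p) w g - up (qq ex ey p) w g ^ 2) :=
      ex_congr fun w hw => var_qP (pr_Pw (pin_mem hp w)) (sh_qq (nu_supp hw).1) _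
    rw [ex_U, ex_U, e0, ex_add, ex_sum', Nm_eq] at h1
    simp only [ex_mul, ex_sub, mul_sub, sum_sub_distrib] at h1
    have : ∑ g, (a g * D g) ^ 2 * P1 (qq ex ey p) u g =
      ∑ g, (a g * D g) ^ 2 * Op.ex (nu (qq ex ey p) u) fun w => up (qq ex ey p) w g := rfl
    have e : Op.ex (nu (qq ex ey p) u) (fun w => Off (qq ex ey p) (fun g => a g * D g) w) =
      Op.ex (nu (qq ex ey p) u) (Off (qq ex ey p) fun g => a g * D g) := rfl
    linarith
  b a h := by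
    have h1 := hb a h
    rwa [ex_U, var_congr fun w hw => U_eq (nu_supp hw).1 _] at h1

theorem tkb_of {S : Lp T Λ → Prop} {κ : ℝ} (hb : TK.TKb ex ey p u D S κ) :
    TKb (qq ex ey p) u D S κ := fun a h => by
  have h1 := hb a h
  rwa [ex_U, var_congr fun w hw => U_eq (nu_supp hw).1 _] at h1

/-- rarity given an up loop is rarity in the medium of the loop. -/
lemma rare_of {g : Lp T Λ} {E : Finset (Lp T Λ) → Prop} {ε : ℝ} (hp : ∀ s, 0 ≤ p s ∧ p s ≤ 1)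
    (hu : ∀ g, 0 ≤ u g)
    (h : qq ex ey p {g} ≠ 0 → Op.ex (med (qq ex ey p) u {g}) (fun w => TK.i1 (E w)) ≤ ε) :
    TK.Rare ex ey p u g E ε := by
  have hc := cpt_qq (ex := ex) (ey := ey) hp
  unfold TK.Rare
  rw [ex_congr (g := fun w => up (qq ex ey p) w g * TK.i1 (E w)) fun w hw => by
    rw [up_qq (nu_supp hw).1, mul_comm], ex_up hc hu,
    ex_congr (g := fun w => up (qq ex ey p) w g) fun w hw => (up_qq (nu_supp hw).1 g).symm]
  change P1 _ u g * _ ≤ ε * P1 _ u g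
  by_cases hg : qq ex ey p {g} = 0
  · have : P1 (qq ex ey p) u g = 0 := by
      have := sum_up (u := u) hc g fun _ => 1
      simp only [mul_one, hg, zero_mul] at this
      rw [P1, ex_nu, this, zero_div]
    simp [this]
  · rw [mul_comm]; exact mul_le_mul_of_nonneg_right (h hg) (P1_nn hc hu g)

lemma exists_root {ξ : Fin T → Bool} {g : Lp T Λ} (hg : g ∈ L ex ey ξ) : ∃ x, (0, x) ∈ g.2 := by
  obtain ⟨v, rfl⟩ := mem_L.1 hg
  have := Arc.wind_pos (ex := ex) (ey := ey) ξ v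
  obtain ⟨x, hx⟩ := card_pos.1 this
  exact ⟨x, mem_obv.2 (mem_filter.1 hx).2⟩

/-- loops with roots in `S`: at most `|S|` of them. -/
lemma card_L_le (ξ : Fin T → Bool) {S : Finset Λ} {Q : Finset (Lp T Λ)}
    (hQ : ∀ g ∈ Q, ∀ x, (0, x) ∈ g.2 → x ∈ S) : (L ex ey ξ ∩ Q).card ≤ S.card := by
  refine le_trans (card_le_card fun g hg => ?_) (card_image_le (s := S) (f := fun x => lp ex ey ξ (0, x)))
  obtain ⟨h1, h2⟩ := mem_inter.1 hg
  obtain ⟨x, hx⟩ := exists_root h1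
  exact mem_image.2 ⟨x, hQ g h2 x hx, (eq_lp h1 hx).symm⟩

lemma rep_qq (hp : ∀ s, 0 ≤ p s ∧ p s ≤ 1) {S : Finset Λ} {Q : Finset (Lp T Λ)}
    (hQ : ∀ g ∈ Q, ∀ x, (0, x) ∈ g.2 → x ∈ S) : Rep (qq ex ey p) Q S.card :=
  rep_qP (pr_Pw hp) _ fun ξ => card_L_le ξ hQ

lemma box_qq {ι : Type} [Fintype ι] [DecidableEq ι] {B : ι → Finset Λ} (hB : Apart ex ey B)
    (hp : ∀ s, 0 ≤ p s ∧ p s ≤ 1) : Box (qq ex ey p) fun i => In (B i) :=
  ⟨cpt_qq hp, hB.uniq, hB.qq_prod hp⟩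

end Crest.Agent.N337.Pc
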