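import Crest.Agent.N337.Pc.Forms
import Crest.Agent.N337.Pe.Main

/-!
# Row 337, block (c): the two-colour gas as a mixture

Environment `(ξ, w)`, available loops `L ξ \ w`; the law of the environment given the top colour
is the medium followed by the coins (`ex_cl`).
-/

set_option autoImplicit false
set_option linter.unusedSectionVars false

namespace Crest.Agent.N337.Pc

open Finset Crest.Agent.N337.Op Crest.Agent.N337.Gas

variable {Γ : Type} [Fintype Γ] [DecidableEq Γ] {Ξ : Type} [Fintype Ξ] [DecidableEq Ξ]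

/-- the labelled family with medium `w` and top colour `A`. -/
def lab (w A : Finset Γ) : Finset (Γ × Bool) :=
  univ.filter fun y => if y.2 = true then y.1 ∈ A else y.1 ∈ w

/-- the labelled polymers of the medium. -/
def lo (X : Finset (Γ × Bool)) : Finset (Γ × Bool) := X.filter fun y => y.2 = false

variable {w A : Finset Γ} {g : Γ}

@[simp] lemma mem_lab_t : (g, true) ∈ lab w A ↔ g ∈ A := by simp [lab]
@[simp] lemma mem_lab_f : (g, false) ∈ lab w A ↔ g ∈ w := by simp [lab]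

lemma fg_hi_lab (w A : Finset Γ) : fg (hi (lab w A)) = A := by ext; simp [mem_fg, hi]
lemma fg_lo_lab (w A : Finset Γ) : fg (lo (lab w A)) = w := by ext; simp [mem_fg, lo]
lemma fg_lab (w A : Finset Γ) : fg (lab w A) = A ∪ w := by ext; simp [mem_fg, or_comm]

lemma lab_fg (X : Finset (Γ × Bool)) : lab (fg (lo X)) (fg (hi X)) = X := by
  ext ⟨g, b⟩; cases b <;> simp [mem_fg, lo, hi]

lemma hi_lab (w A : Finset Γ) : hi (lab w A) = lab ∅ A := by
  ext ⟨g, b⟩; cases b <;> simp [hi]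

lemma hi_eq_iff {X : Finset (Γ × Bool)} : hi (lab w A) = hi X ↔ A = fg (hi X) := by
  refine ⟨fun h => by rw [← h, fg_hi_lab], fun h => ?_⟩
  conv_rhs => rw [← lab_fg X]
  rw [hi_lab, hi_lab, h]

lemma lab_erase (w A : Finset Γ) (g : Γ) : (lab w A).erase (g, true) = lab w (A.erase g) := by
  ext ⟨g', b⟩; cases b <;> simp

lemma inj_lab : Inj (lab w A) ↔ Disjoint A w := by
  refine ⟨fun h => disjoint_left.2 fun g h1 h2 => ?_, fun h => ?_⟩
  · simpa using h (g, true) (mem_lab_t.2 h1) (g, false) (mem_lab_f.2 h2) rfl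
  · rintro ⟨g, b⟩ h1 ⟨g', b'⟩ h2 (rfl : g = g')
    cases b <;> cases b' <;> simp only [mem_lab_t, mem_lab_f] at h1 h2
    exacts [rfl, absurd h1 (disjoint_left.1 h h2), absurd h2 (disjoint_left.1 h h1), rfl]

lemma prod_lab (w A : Finset Γ) (f : Γ × Bool → ℝ) :
    ∏ y ∈ lab w A, f y = (∏ g ∈ A, f (g, true)) * ∏ g ∈ w, f (g, false) := by
  simp [lab, prod_filter, Fintype.prod_prod_type_right]

lemma sum_hi_lab (w A : Finset Γ) (f : Γ × Bool → ℝ) :
    ∑ y ∈ hi (lab w A), f y = ∑ g ∈ A, f (g, true) := by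
  rw [hi_lab]
  simp [lab, sum_filter, Fintype.sum_prod_type_right]

lemma sum_lab (φ : Finset (Γ × Bool) → ℝ) : ∑ X, φ X = ∑ w, ∑ A, φ (lab w A) := by
  rw [← Fintype.sum_prod_type']
  exact (Fintype.sum_equiv (⟨fun p => lab p.1 p.2, fun X => (fg (lo X), fg (hi X)),
    fun p => by simp only [fg_hi_lab, fg_lo_lab], lab_fg⟩ :
      Finset Γ × Finset Γ ≃ Finset (Γ × Bool)) _ _ fun _ => rfl).symm

lemma gw_lab (q : Finset Γ → ℝ) (u D : Γ → ℝ) (w A : Finset Γ) :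
    gw (qL q) (two u D) (lab w A) =
      if Disjoint A w then q (A ∪ w) * ((∏ g ∈ A, D g) * ∏ g ∈ w, u g) else 0 := by
  simp only [gw, qL, inj_lab, fg_lab, prod_lab, two, ite_mul, zero_mul]
  simp

/-- mean over the coins given that `x` is present. -/
noncomputable def cE (P : Ξ → ℝ) (L : Ξ → Finset Γ) (x : Finset Γ) (ψ : Ξ → ℝ) : ℝ :=
  (∑ ξ, P ξ * if x ⊆ L ξ then ψ ξ else 0) / qP P L x

/-- weight of the environment. -/
noncomputable def WW (P : Ξ → ℝ) (L : Ξ → Finset Γ) (u D : Γ → ℝ) (e : Ξ × Finset Γ) : ℝ :=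
  (if e.2 ⊆ L e.1 then P e.1 * ∏ g ∈ e.2, u g else 0) / gZ (qL (qP P L)) (two u D)

/-- available loops. -/
def OO (L : Ξ → Finset Γ) (e : Ξ × Finset Γ) : Finset Γ := L e.1 \ e.2

variable {P : Ξ → ℝ} {L : Ξ → Finset Γ} {u D : Γ → ℝ} {x : Finset Γ}

lemma two_nn (hu : ∀ g, 0 ≤ u g) (hD : ∀ g, 0 ≤ D g) (y : Γ × Bool) : 0 ≤ two u D y := by
  unfold two; split_ifs; exacts [hD _, hu _]

lemma WW_nn (hP : Pr P) (hu : ∀ g, 0 ≤ u g) (hD : ∀ g, 0 ≤ D g) (e : Ξ × Finset Γ) :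
    0 ≤ WW P L u D e :=
  div_nonneg (by split_ifs; exacts [mul_nonneg (hP.nn _) (prod_nonneg fun g _ => hu g), le_rfl])
    (gZ_pos (cpt_qP hP L).qL (two_nn hu hD)).le

lemma P_zero (hP : Pr P) (h : qP P L x = 0) {ξ : Ξ} (hx : x ⊆ L ξ) : P ξ = 0 := by
  have := (sum_eq_zero_iff_of_nonneg fun ξ _ =>
    mul_nonneg (hP.nn ξ) (by split_ifs <;> norm_num)).1 h ξ (mem_univ _)
  rwa [if_pos hx, mul_one] at this

lemma qP_mul_cE (hP : Pr P) (x : Finset Γ) (ψ : Ξ → ℝ) :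
    qP P L x * cE P L x ψ = ∑ ξ, P ξ * if x ⊆ L ξ then ψ ξ else 0 := by
  by_cases h : qP P L x = 0
  · rw [h, zero_mul]
    refine (sum_eq_zero fun ξ _ => ?_).symm
    split_ifs with hx
    · rw [P_zero hP h hx, zero_mul]
    · rw [mul_zero]
  · exact mul_div_cancel₀ _ h

lemma cE_mul (c : ℝ) (ψ : Ξ → ℝ) : cE P L x (fun ξ => ψ ξ * c) = cE P L x ψ * c := by
  rw [cE, cE, div_mul_eq_mul_div, sum_mul]
  congr 1
  exact sum_congr rfl fun ξ _ => by split_ifs <;> ring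

lemma cE_one (h : qP P L x ≠ 0) : cE P L x (fun _ => 1) = 1 := div_self h

lemma cE_const (h : qP P L x ≠ 0) (c : ℝ) : cE P L x (fun _ => c) = c := by
  simpa only [one_mul, cE_one h] using cE_mul (P := P) (L := L) (x := x) c fun _ => 1

lemma cE_sum (c : Γ → ℝ) (ψ : Γ → Ξ → ℝ) :
    cE P L x (fun ξ => ∑ g, c g * ψ g ξ) = ∑ g, c g * cE P L x (ψ g) := by
  simp only [cE, ← mul_div_assoc, ← sum_div, mul_sum]
  rw [sum_comm]
  congr 1
  refine sum_congr rfl fun ξ _ => ?_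
  split_ifs
  · rw [mul_sum]; exact sum_congr rfl fun g _ => by ring
  · simp

lemma sub_OO {ξ : Ξ} : (w ⊆ L ξ ∧ A ⊆ OO L (ξ, w)) ↔ (Disjoint A w ∧ A ∪ w ⊆ L ξ) := by
  simp only [OO, subset_sdiff, union_subset_iff]; tauto

/-- the two-colour gas is the joint law of the mixture. -/
theorem ex_mu (hP : Pr P) (hu : ∀ g, 0 ≤ u g) (hD : ∀ g, 0 ≤ D g) (φ : Finset (Γ × Bool) → ℝ) :
    ex (nu (qL (qP P L)) (two u D)) φ =
      Pe.jx (WW P L u D) (OO L) D fun e A => φ (lab e.2 A) := by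
  rw [Pe.jx_eq (WW_nn hP hu hD), ex_nu, sum_lab, Fintype.sum_prod_type_right, sum_div]
  refine sum_congr rfl fun w _ => ?_
  have e : ∀ (S : Finset Γ) (f : Finset Γ → ℝ),
      ∑ A ∈ S.powerset, f A = ∑ A, if A ⊆ S then f A else 0 := fun S f => by
    rw [← sum_filter]; exact sum_congr (by ext; simp) fun _ _ => rfl
  simp only [e, mul_sum]
  rw [sum_comm, sum_div]
  refine sum_congr rfl fun A _ => ?_
  have : ∀ ξ, (WW P L u D (ξ, w) * if A ⊆ OO L (ξ, w) then (∏ g ∈ A, D g) * φ (lab w A) else 0) =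
      (P ξ * if A ∪ w ⊆ L ξ then 1 else 0) * ((if Disjoint A w then
        (∏ g ∈ A, D g) * ∏ g ∈ w, u g else 0) * φ (lab w A) / gZ (qL (qP P L)) (two u D)) := by
    intro ξ
    have := sub_OO (L := L) (w := w) (A := A) (ξ := ξ)
    simp only [WW]
    split_ifs <;> first | ring1 | tauto
  simp only [this, ← sum_mul]
  rw [gw_lab, ← qP]
  split_ifs <;> ring

lemma prod_off (u : Γ → ℝ) (A w : Finset Γ) :
    ∏ g ∈ w, off (· ∈ A) u g = if Disjoint A w then ∏ g ∈ w, u g else 0 := by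
  split_ifs with h
  · exact prod_congr rfl fun g hg => if_neg (disjoint_right.1 h hg)
  · obtain ⟨g, h1, h2⟩ := not_disjoint_iff.1 h
    exact prod_eq_zero h2 (if_pos h1)

lemma q_ne (hP : Pr P) (h : Pe.zz (WW P L u D) (OO L) A ≠ 0) : qP P L A ≠ 0 := fun h0 =>
  h (sum_eq_zero fun e _ => by
    split_ifs with h1
    · simp [WW, P_zero hP h0 (h1.trans sdiff_subset)]
    · rfl)

lemma sm_WW (hP : Pr P) (h : qP P L A ≠ 0) (φ : Ξ × Finset Γ → ℝ) :
    Pe.sm (WW P L u D) (OO L) A φ = qP P L A / gZ (qL (qP P L)) (two u D) *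
      ∑ w, gw (sh (qP P L) A) (off (· ∈ A) u) w * cE P L (A ∪ w) fun ξ => φ (ξ, w) := by
  rw [Pe.sm, Fintype.sum_prod_type_right, mul_sum]
  refine sum_congr rfl fun w _ => ?_
  have : ∀ ξ, (if A ⊆ OO L (ξ, w) then WW P L u D (ξ, w) * φ (ξ, w) else 0) =
      (P ξ * if A ∪ w ⊆ L ξ then φ (ξ, w) else 0) *
        ((if Disjoint A w then ∏ g ∈ w, u g else 0) / gZ (qL (qP P L)) (two u D)) := by
    intro ξ
    have := sub_OO (L := L) (w := w) (A := A) (ξ := ξ)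
    simp only [WW]
    split_ifs <;> first | ring1 | tauto
  simp only [this, ← sum_mul]
  rw [← qP_mul_cE hP, gw, sh, prod_off]
  field_simp

lemma med_supp {q : Finset Γ → ℝ} (h : med q u A w ≠ 0) : q (A ∪ w) ≠ 0 ∧ Disjoint A w :=
  ⟨fun h0 => (nu_supp h).1 (by rw [sh, h0, zero_div]),
    disjoint_right.2 fun g hg hA => (nu_supp h).2 g hg (if_pos hA)⟩

lemma pr_med {q : Finset Γ → ℝ} (hq : Cpt q) (hu : ∀ g, 0 ≤ u g) (h : q A ≠ 0) : Pr (med q u A) :=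
  pr_nu (hq.sh h) (off_nn hu)

/-- the law of the environment given the top colour. -/
theorem ex_cl (hP : Pr P) (hu : ∀ g, 0 ≤ u g) (hD : ∀ g, 0 ≤ D g)
    (h : Pe.zz (WW P L u D) (OO L) A ≠ 0) (φ : Ξ × Finset Γ → ℝ) :
    ex (Pe.cl (WW P L u D) (OO L) A) φ =
      ex (med (qP P L) u A) fun w => cE P L (A ∪ w) fun ξ => φ (ξ, w) := by
  have hq := q_ne hP h
  have hZ := (gZ_pos ((cpt_qP hP L).sh hq) (off_nn (Q := (· ∈ A)) hu)).ne'
  have key : ∀ φ : Ξ × Finset Γ → ℝ, Pe.sm (WW P L u D) (OO L) A φ =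
      qP P L A / gZ (qL (qP P L)) (two u D) * gZ (sh (qP P L) A) (off (· ∈ A) u) *
        ex (med (qP P L) u A) fun w => cE P L (A ∪ w) fun ξ => φ (ξ, w) := fun φ => by
    rw [sm_WW hP hq, med, ex_nu, mul_assoc, mul_div_cancel₀ _ hZ]
  have h1 := key fun _ => 1
  rw [ex_congr (g := fun _ => 1) fun w hw => cE_one (med_supp hw).1,
    (pr_med (cpt_qP hP L) hu hq).ex_const, mul_one] at h1
  refine mul_left_cancel₀ h ?_
  rw [← Pe.sm_eq (WW_nn hP hu hD), key, ← h1, Pe.zz]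

lemma ex_cl_w (hP : Pr P) (hu : ∀ g, 0 ≤ u g) (hD : ∀ g, 0 ≤ D g)
    (h : Pe.zz (WW P L u D) (OO L) A ≠ 0) (f : Finset Γ → ℝ) :
    ex (Pe.cl (WW P L u D) (OO L) A) (fun e => f e.2) = ex (med (qP P L) u A) f := by
  rw [ex_cl hP hu hD h]
  exact ex_congr fun w hw => cE_const (med_supp hw).1 (f w)

lemma var_cl_w (hP : Pr P) (hu : ∀ g, 0 ≤ u g) (hD : ∀ g, 0 ≤ D g)
    (h : Pe.zz (WW P L u D) (OO L) A ≠ 0) (f : Finset Γ → ℝ) :
    var (Pe.cl (WW P L u D) (OO L) A) (fun e => f e.2) = var (med (qP P L) u A) f := by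
  simp only [var, nsq_eq_ex, ex_cl_w hP hu hD h]
  exact ex_cl_w hP hu hD h fun w => (f w - _) ^ 2

lemma av_eq_bw (D : Γ → ℝ) (X : Finset Γ) (f : Finset Γ → ℝ) :
    Pe.av D X f = ∑ B ∈ X.powerset, bw D X B * f B := by
  refine sum_congr rfl fun B hB => ?_
  rw [Pe.wt, bw, prod_ite, filter_mem_eq_inter, inter_eq_right.2 (mem_powerset.1 hB),
    ← sdiff_eq_filter]

lemma OO_sdiff (L : Ξ → Finset Γ) (ξ : Ξ) (w A : Finset Γ) : OO L (ξ, w) \ A = L ξ \ (A ∪ w) := by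
  rw [OO, sdiff_sdiff_left, union_comm]; rfl

lemma ex_cl_av (hP : Pr P) (hu : ∀ g, 0 ≤ u g) (hD : ∀ g, 0 ≤ D g)
    (h : Pe.zz (WW P L u D) (OO L) A ≠ 0) (f : Finset Γ → ℝ) :
    ex (Pe.cl (WW P L u D) (OO L) A) (fun e => Pe.av D (OO L e \ A) f) = kB P L u D A f := by
  rw [ex_cl hP hu hD h]
  simp only [OO_sdiff, av_eq_bw]; rfl

/-- indicator that the loops of `T` are up. -/
def JJ (L : Ξ → Finset Γ) (A T : Finset Γ) (e : Ξ × Finset Γ) : ℝ :=
  if T ⊆ OO L e \ A then 1 else 0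

lemma cE_JJ (h : qP P L A ≠ 0) {T : Finset Γ} (hT : Disjoint T A) :
    cE P L (A ∪ w) (fun ξ => JJ L A T (ξ, w)) =
      if Disjoint T w then sh (sh (qP P L) A) w T else 0 := by
  simp only [cE, JJ, OO_sdiff, subset_sdiff, disjoint_union_right, hT, true_and]
  split_ifs with h1
  · rw [sh, sh, sh, div_div_div_cancel_right₀ h, ← union_assoc]
    congr 1
    refine sum_congr rfl fun ξ _ => ?_
    simp only [h1, if_true, union_subset_iff (s := A ∪ w), ite_and]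
  · simp [h1]

lemma cE_up (h : qP P L A ≠ 0) (hg : g ∉ A) :
    cE P L (A ∪ w) (fun ξ => JJ L A {g} (ξ, w)) = up (sh (qP P L) A) w g := by
  rw [cE_JJ h (disjoint_singleton_left.2 hg), up]
  simp only [disjoint_singleton_left, ite_not]

lemma cE_up2 {g' : Γ} (h : qP P L A ≠ 0) (hg : g ∉ A) (hg' : g' ∉ A) :
    cE P L (A ∪ w) (fun ξ => JJ L A {g, g'} (ξ, w)) = up2 (sh (qP P L) A) w g g' := by
  rw [cE_JJ h (by simp [hg, hg']), up2]
  simp only [disjoint_insert_left, disjoint_singleton_left, ← not_or, ite_not]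

lemma sum_JJ (L : Ξ → Finset Γ) (A : Finset Γ) (c : Γ → ℝ) (e : Ξ × Finset Γ) :
    ∑ g ∈ OO L e \ A, c g = ∑ g, c g * JJ L A {g} e := by
  simp only [JJ, singleton_subset_iff, mul_ite, mul_one, mul_zero, sum_ite_mem, univ_inter]

lemma JJ_mul (L : Ξ → Finset Γ) (A : Finset Γ) (g g' : Γ) (e : Ξ × Finset Γ) :
    JJ L A {g} e * JJ L A {g'} e = JJ L A {g, g'} e := by
  simp only [JJ, singleton_subset_iff, insert_subset_iff, ite_and]
  split_ifs <;> simp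

lemma cE_Phi (h : qP P L A ≠ 0) {c : Γ → ℝ} (hc : ∀ g, c g ≠ 0 → g ∉ A) :
    cE P L (A ∪ w) (fun ξ => ∑ g ∈ OO L (ξ, w) \ A, c g) = Phb (sh (qP P L) A) c w := by
  simp only [sum_JJ]
  rw [cE_sum c fun g ξ => JJ L A {g} (ξ, w)]
  refine sum_congr rfl fun g _ => ?_
  by_cases h0 : c g = 0
  · rw [h0, zero_mul, zero_mul]
  · rw [cE_up h (hc g h0)]

end Crest.Agent.N337.Pc
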