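import Crest.Agent.N337.Pc.Sparse

/-!
# Row 337, block (c): impossible polymers, tests of small weight, deletion (helper78)
-/

set_option autoImplicit false
set_option linter.unusedSectionVars false

namespace Crest.Agent.N337.Pc

open Finset Crest.Agent.N337.Op Crest.Agent.N337.Gas

variable {Γ : Type} [Fintype Γ] [DecidableEq Γ] {q : Finset Γ → ℝ} {u u' D D' al al' : Γ → ℝ}
  {S : Γ → Prop} {κ η : ℝ} {g g' : Γ} {Q : Finset Γ} {n : ℕ}

lemma sh_zero (hq : Cpt q) (h : q {g} = 0) (w : Finset Γ) {A : Finset Γ} (hA : g ∈ A) :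
    sh q w A = 0 := by
  have : q (w ∪ A) = 0 := by
    by_contra h'; exact hq.ne_of_sub (singleton_subset_iff.2 (mem_union_right _ hA)) h' h
  rw [sh, this, zero_div]

lemma up_zero (hq : Cpt q) (h : q {g} = 0) (w : Finset Γ) : up q w g = 0 := by
  rw [up, sh_zero hq h w (mem_singleton_self g), ite_self]

lemma P1_zero (hq : Cpt q) (h : q {g} = 0) : P1 q u g = 0 := by simp [P1, up_zero hq h, ex]

lemma P2_zero (hq : Cpt q) (h : q {g} = 0) (g' : Γ) : P2 q u g g' = 0 := by
  simp [P2, up2, sh_zero hq h _ (mem_insert_self g {g'}), ex]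

lemma Phb_congr (hq : Cpt q) (h : ∀ g, q {g} ≠ 0 → al g = al' g) : Phb q al = Phb q al' := by
  funext w
  refine sum_congr rfl fun g _ => ?_
  by_cases h0 : q {g} = 0
  · simp [up_zero hq h0]
  · rw [h g h0]

lemma Nm_congr (hq : Cpt q) (hu : ∀ g, q {g} ≠ 0 → u g = u' g) (h : ∀ g, q {g} ≠ 0 → al g = al' g) :
    Nm q u al = Nm q u' al' := by rw [Nm, Nm, nu_congr hq hu, Phb_congr hq h]

lemma Bf_congr (hq : Cpt q) (hu : ∀ g, q {g} ≠ 0 → u g = u' g) (h : ∀ g, q {g} ≠ 0 → al g = al' g) :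
    Bf q u al al = Bf q u' al' al' := by
  have e1 : P1 q u = P1 q u' := by funext g; rw [P1, P1, nu_congr hq hu]
  have e2 : P2 q u = P2 q u' := by funext g g'; rw [P2, P2, nu_congr hq hu]
  unfold Bf; rw [e1, e2]
  refine sum_congr rfl fun g _ => sum_congr rfl fun g' _ => ?_
  by_cases h0 : q {g} = 0
  · simp [P1_zero hq h0, P2_zero hq h0]
  by_cases h1 : q {g'} = 0
  · simp [P1_zero hq h1, P2_comm q u' g g', P2_zero hq h1]
  rw [h g h0, h g' h1]

/-- impossible polymers do not matter. -/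
theorem TKt.congr (hq : Cpt q) (hu : ∀ g, q {g} ≠ 0 → u g = u' g)
    (hD : ∀ g, q {g} ≠ 0 → D g = D' g) (h : TKt q u D (fun g => S g ∧ q {g} ≠ 0) κ) :
    TKt q u' D' S κ := fun a ha => by
  classical
  have h1 := h (fun g => if q {g} = 0 then 0 else a g) fun g hg => by
    by_cases h0 : q {g} = 0
    · simp [h0] at hg
    · exact ⟨ha g (by simpa [h0] using hg), h0⟩
  rw [Bf_congr (al' := fun g => a g * D' g) hq hu fun g h0 => by simp [h0, hD g h0],
    Nm_congr (al' := fun g => a g ^ 2 * D' g) hq hu fun g h0 => by simp [h0, hD g h0]] at h1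
  refine h1.trans (le_of_eq ?_)
  congr 1
  refine sum_congr rfl fun g _ => ?_
  by_cases h0 : q {g} = 0
  · simp [P1_zero hq h0]
  · rw [if_neg h0, hD g h0, P1, P1, nu_congr hq hu]

theorem TKb.congr (hq : Cpt q) (hu : ∀ g, q {g} ≠ 0 → u g = u' g)
    (hD : ∀ g, q {g} ≠ 0 → D g = D' g) (h : TKb q u D (fun g => S g ∧ q {g} ≠ 0) κ) :
    TKb q u' D' S κ := fun a ha => by
  classical
  have h1 := h (fun g => if q {g} = 0 then 0 else a g) fun g hg => by
    by_cases h0 : q {g} = 0
    · simp [h0] at hg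
    · exact ⟨ha g (by simpa [h0] using hg), h0⟩
  rwa [Phb_congr (al' := fun g => a g * D' g) hq fun g h0 => by simp [h0, hD g h0],
    Nm_congr (al' := fun g => a g ^ 2 * D' g) hq hu fun g h0 => by simp [h0, hD g h0],
    nu_congr hq hu] at h1

lemma TKb.of_ne (h : TKb q u D (fun g => S g ∧ D g ≠ 0) κ) : TKb q u D S κ := fun a ha => by
  classical
  have := h (fun g => if D g = 0 then 0 else a g) fun g hg => by
    by_cases h0 : D g = 0
    · simp [h0] at hg
    · exact ⟨ha g (by simpa [h0] using hg), h0⟩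
  have e1 : ∀ g, (if D g = 0 then 0 else a g) * D g = a g * D g := fun g => by
    split_ifs with h0 <;> simp [*]
  have e2 : ∀ g, (if D g = 0 then 0 else a g) ^ 2 * D g = a g ^ 2 * D g := fun g => by
    split_ifs with h0 <;> simp [*]
  simpa only [e1, e2] using this

lemma Rep.Rt_small (hq : Rep q Q n) (hu : ∀ g, 0 ≤ u g) (hQ : ∀ g, D g ≠ 0 → g ∈ Q) (hη : 0 ≤ η)
    (h : ∀ g, S g → D g ≤ η) (g : Γ) : Rt q u D S g ≤ 2 * n * η * P1 q u g := by
  classical
  have hc := hq.cpt
  have nn : ∀ g', 0 ≤ P2 q u g g' + P1 q u g * P1 q u g' := fun g' =>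
    add_nonneg (P2_nn hc hu _ _) (mul_nonneg (P1_nn hc hu _) (P1_nn hc hu _))
  calc Rt q u D S g ≤ ∑ g' ∈ univ.erase g,
        if g' ∈ Q then η * (P2 q u g g' + P1 q u g * P1 q u g') else 0 :=
        sum_le_sum fun g' _ => by
          by_cases h0 : D g' = 0
          · rw [h0, zero_mul, ite_self]; split_ifs; exacts [mul_nonneg hη (nn g'), le_rfl]
          rw [if_pos (hQ g' h0)]
          split_ifs with h1
          · exact mul_le_mul_of_nonneg_right (h g' h1) (nn g')
          · exact mul_nonneg hη (nn g')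
    _ ≤ ∑ g', if g' ∈ Q then η * (P2 q u g g' + P1 q u g * P1 q u g') else 0 :=
        sum_le_sum_of_subset_of_nonneg (erase_subset _ _) fun g' _ _ => by
          split_ifs; exacts [mul_nonneg hη (nn g'), le_rfl]
    _ ≤ _ := by
        rw [← sum_filter, filter_mem_eq_inter, univ_inter, ← mul_sum, sum_add_distrib, ← mul_sum]
        nlinarith [mul_le_mul_of_nonneg_left (add_le_add (hq.sum_P2_le hu g)
          (mul_le_mul_of_nonneg_left (hq.sum_P1_le hu) (P1_nn hc hu g))) hη]

/-- **tests of small weight** (total form). -/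
theorem TKt.small (hq : Rep q Q n) (hu : ∀ g, 0 ≤ u g) (hD : ∀ g, 0 ≤ D g ∧ D g ≤ 1)
    (hQ : ∀ g, D g ≠ 0 → g ∈ Q) {Lg : Γ → Prop} (hη : 0 < η) (hη1 : η ≤ 1) (hn : 1 ≤ n)
    (hL : ∀ g, Lg g → D g ≤ η) (hκ : 0 ≤ κ) (h : TKt q u D (fun g => S g ∧ ¬ Lg g) κ) :
    TKt q u D S (κ + 10 * n * Real.sqrt η) := by
  have h1 : (1 : ℝ) ≤ n := by exact_mod_cast hn
  have h2 := Real.sqrt_pos.2 hη
  have h3 := Real.mul_self_sqrt hη.le
  have h4 : η ≤ Real.sqrt η := by
    have : Real.sqrt η ≤ 1 := Real.sqrt_le_one.2 hη1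
    nlinarith
  have := dirty (S := S) (S0 := fun g => ¬ Lg g) (S2 := Lg) (κ := 2 * n * Real.sqrt η)
    (ε := 2 * n * η) hq hu hD hQ hκ (by positivity) (by nlinarith) (fun _ h => h) h
    (fun g _ _ => (hq.Rt_small hu hQ hη.le (fun g h => hL g (not_not.1 h.2)) g).trans
      (mul_le_mul_of_nonneg_right (by nlinarith) (P1_nn hq.cpt hu g)))
    fun g _ _ => hq.Rt_small hu hQ hη.le (fun g h => hL g h.2) g
  rwa [show κ + 5 * (2 * n * Real.sqrt η) = κ + 10 * n * Real.sqrt η by ring] at this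

/-- **tests of small weight** (response form). -/
theorem TKb.small (hq : Rep q Q n) (hu : ∀ g, 0 ≤ u g) (hD : ∀ g, 0 ≤ D g)
    (hQ : ∀ g, D g ≠ 0 → g ∈ Q) {Lg : Γ → Prop} (hη : 0 ≤ η)
    (hL : ∀ g, Lg g → D g ≤ η) (hκ : 0 ≤ κ) (h : TKb q u D (fun g => S g ∧ ¬ Lg g) κ) :
    TKb q u D S (2 * κ + 2 * n * η) := fun a ha => by
  classical
  have hc := hq.cpt
  have hp := pr_nu hc hu
  have h1 := h (fun g => if Lg g then 0 else a g) fun g hg => by
    by_cases h0 : Lg g
    · simp [h0] at hg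
    · exact ⟨ha g (by simpa [h0] using hg), h0⟩
  set f1 := Phb q fun g => (if Lg g then 0 else a g) * D g
  set f2 := Phb q fun g => (if Lg g then a g else 0) * D g with hf2
  have e : (Phb q fun g => a g * D g) = fun w => f1 w + f2 w := by
    funext w
    simp only [f1, f2, Phb, ← sum_add_distrib]
    exact sum_congr rfl fun g _ => by split_ifs <;> ring
  have hN : 0 ≤ Nm q u fun g => a g ^ 2 * D g := Nm_nn hc hu fun g => mul_nonneg (sq_nonneg _) (hD g)
  have h2 : Nm q u (fun g => (if Lg g then 0 else a g) ^ 2 * D g) ≤ Nm q u fun g => a g ^ 2 * D g :=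
    Nm_mono hc hu fun g => mul_le_mul_of_nonneg_right (by split_ifs <;> simp [sq_nonneg]) (hD g)
  have h3 : nsq (nu q u) f2 ≤ n * η * Nm q u fun g => a g ^ 2 * D g := by
    rw [Nm, ← ex_mul]
    refine ex_mono_ae hp.nn fun w hw => ?_
    have c1 := sum_sq_le_sum_mul_sum_of_sq_le_mul univ
      (r := fun g => (if Lg g then a g else 0) * D g * up q w g)
      (f := fun g => (if Lg g then D g else 0) * up q w g) (g := fun g => a g ^ 2 * D g * up q w g)
      (fun g _ => mul_nonneg (by split_ifs; exacts [hD g, le_rfl]) (up_nn hc w g))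
      (fun g _ => mul_nonneg (mul_nonneg (sq_nonneg _) (hD g)) (up_nn hc w g))
      (fun g _ => le_of_eq (by split_ifs <;> ring))
    have c2 : ∑ g, (if Lg g then D g else 0) * up q w g ≤ n * η := by
      refine le_trans (sum_le_sum (g := fun g => if g ∈ Q then η * up q w g else 0) fun g _ => ?_) ?_
      · by_cases h0 : D g = 0
        · rw [h0, ite_self, zero_mul]; split_ifs; exacts [mul_nonneg hη (up_nn hc w g), le_rfl]
        rw [if_pos (hQ g h0)]
        refine mul_le_mul_of_nonneg_right ?_ (up_nn hc w g)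
        split_ifs with h5
        exacts [hL g h5, hη]
      · rw [← sum_filter, filter_mem_eq_inter, univ_inter, ← mul_sum, mul_comm]
        exact mul_le_mul_of_nonneg_right (hq.sum_up_le (nu_supp hw).1) hη
    exact c1.trans (mul_le_mul_of_nonneg_right c2 (sum_nonneg fun g _ =>
      mul_nonneg (mul_nonneg (sq_nonneg _) (hD g)) (up_nn hc w g)))
  have h4 := hp.var_le_sub (fun w => f1 w + f2 w) (ex (nu q u) f1)
  have h5 := nsq_add_le hp.nn (fun w => f1 w - ex (nu q u) f1) f2
  have e2 : (fun w => f1 w + f2 w - ex (nu q u) f1) = fun w => f1 w - ex (nu q u) f1 + f2 w := by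
    funext w; ring
  rw [e2] at h4
  rw [e]
  have h6 := mul_le_mul_of_nonneg_left h2 hκ
  unfold var at h1 h4 ⊢
  nlinarith

open Classical in
/-- states that contain a polymer of a family of small rate are rare. -/
theorem ex_has_le (hq : Cpt q) (hu : ∀ g, 0 ≤ u g) (P : Γ → Prop) {e : ℝ}
    (h : ∀ w, q w ≠ 0 → ∑ g, (if P g then u g * up q w g else 0) ≤ e) :
    ex (nu q u) (ind fun w => ∃ g ∈ w, P g) ≤ e := by
  have hp := pr_nu hq hu
  have h1 : ex (nu q u) (ind fun w => ∃ g ∈ w, P g) ≤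
      ex (nu q u) fun w => ∑ g ∈ w, if P g then 1 else 0 := ex_mono hp.nn fun w => by
    have a0 : ∀ g, (0 : ℝ) ≤ if P g then 1 else 0 := fun g => by split_ifs <;> norm_num
    unfold ind
    split_ifs with hw
    · obtain ⟨g, hg, hP⟩ := hw
      simpa only [hP, if_true] using single_le_sum (fun g _ => a0 g) hg
    · exact sum_nonneg fun g _ => a0 g
  refine h1.trans ?_
  rw [ex, gnz (nu q u) fun _ g => if P g then 1 else 0, ← hp.ex_const e]
  refine sum_le_sum fun w _ => ?_
  by_cases hw : q w = 0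
  · rw [sum_eq_zero fun g _ => ?_]
    · simp [nu, gw, hw]
    · have : q (insert g w) = 0 := by
        by_contra h'; exact hq.ne_of_sub (subset_insert _ _) h' hw
      simp [nu, gw, this]
  have e1 : ∑ g ∈ wᶜ, nu q u (insert g w) * (if P g then 1 else 0) =
      nu q u w * ∑ g, if P g then u g * up q w g else 0 := by
    rw [mul_sum, ← sum_subset (subset_univ wᶜ) fun g _ hg => ?_]
    · refine sum_congr rfl fun g hg => ?_
      have hg' := mem_compl.1 hg
      rw [nu, nu, gw_insert hg' hw, up, if_neg hg']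
      split_ifs <;> ring
    · have : g ∈ w := by simpa using hg
      simp [up, this]
  rw [e1]
  exact mul_le_mul_of_nonneg_left (h w hw) (hp.nn w)

open Classical in
/-- the rate of a family of small weights. -/
lemma Rep.rate_le (hq : Rep q Q n) (hQ : ∀ g, u g ≠ 0 → g ∈ Q) (hη : 0 ≤ η) {P : Γ → Prop}
    (h : ∀ g, P g → u g ≤ η) {w : Finset Γ} (hw : q w ≠ 0) :
    ∑ g, (if P g then u g * up q w g else 0) ≤ n * η := by
  have hc := hq.cpt
  refine le_trans (sum_le_sum (g := fun g => if g ∈ Q then η * up q w g else 0) fun g _ => ?_) ?_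
  · by_cases h0 : u g = 0
    · rw [h0, zero_mul, ite_self]; split_ifs; exacts [mul_nonneg hη (up_nn hc w g), le_rfl]
    rw [if_pos (hQ g h0)]
    split_ifs with h5
    exacts [mul_le_mul_of_nonneg_right (h g h5) (up_nn hc w g), mul_nonneg hη (up_nn hc w g)]
  · rw [← sum_filter, filter_mem_eq_inter, univ_inter, ← mul_sum, mul_comm]
    exact mul_le_mul_of_nonneg_right (hq.sum_up_le hw) hη

lemma Rep.mono {n' : ℕ} (hq : Rep q Q n) (h : n ≤ n') : Rep q Q n' := by
  obtain ⟨l, h1, h2, h3⟩ := hq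
  exact ⟨l, h1, fun X hX => (h2 X hX).trans h, h3⟩

end Crest.Agent.N337.Pc
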