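import Crest.Agent.N337.Pc.Forms

/-!
# Row 337, block (c): the Turán–Kubilius bound is additive over independent boxes (helper78)
-/

set_option autoImplicit false
set_option linter.unusedSectionVars false

namespace Crest.Agent.N337.Pc

open Finset Crest.Agent.N337.Op Crest.Agent.N337.Gas

variable {Γ : Type} [Fintype Γ] [DecidableEq Γ] {q : Finset Γ → ℝ} {u D : Γ → ℝ}
  {ι : Type} [Fintype ι] [DecidableEq ι] {B : ι → Γ → Prop} [∀ i, DecidablePred (B i)]

lemma ex_pm_one {E : Type} [Fintype E] [DecidableEq E] {ν : ι → E → ℝ} (hν : ∀ i, Pr (ν i))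
    (i : ι) (f : E → ℝ) : ex (pm ν) (fun ω => f (ω i)) = ex (ν i) f := by
  rw [ex_pm_sec hν i]
  simp only [Function.update_self]
  exact (pr_pm hν).ex_const _

lemma ex_pm_two {E : Type} [Fintype E] [DecidableEq E] {ν : ι → E → ℝ} (hν : ∀ i, Pr (ν i))
    {i j : ι} (hij : i ≠ j) (f f' : E → ℝ) :
    ex (pm ν) (fun ω => f (ω i) * f' (ω j)) = ex (ν i) f * ex (ν j) f' := by
  rw [ex_pm_sec hν i]
  simp only [Function.update_self, Function.update_of_ne hij.symm]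
  have : ∀ ω : ι → E, ex (ν i) (fun x => f x * f' (ω j)) = ex (ν i) f * f' (ω j) := fun ω => by
    rw [mul_comm, ← ex_mul]; congr 1; funext x; ring
  simp only [this]
  rw [ex_mul, ex_pm_one hν]

/-- independent boxes. -/
structure Box (q : Finset Γ → ℝ) (B : ι → Γ → Prop) [∀ i, DecidablePred (B i)] : Prop where
  cpt : Cpt q
  uniq : ∀ i j g, B i g → B j g → i = j
  prod : ∀ A, (∀ g ∈ A, ∃ i, B i g) → q A = ∏ i, q (A.filter (B i))

lemma Box.sh_un (h : Box q B) {ω : ι → Finset Γ} (hω : ∀ i, ∀ g ∈ ω i, B i g)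
    {x : Finset Γ} (hx : ∀ g ∈ x, ∃ i, B i g) :
    sh q (un ω) x = ∏ i, q (ω i ∪ x.filter (B i)) / q (ω i) := by
  have h1 : ∀ g ∈ un ω, ∃ i, B i g := fun g hg => by
    obtain ⟨i, -, hi⟩ := mem_biUnion.1 hg; exact ⟨i, hω i g hi⟩
  rw [Gas.sh, h.prod _ h1, h.prod (un ω ∪ x) fun g hg => (mem_union.1 hg).elim (h1 g) (hx g),
    prod_div_distrib]
  simp only [filter_union, filter_un h.uniq hω]

lemma mem_un_iff (hB : ∀ i j g, B i g → B j g → i = j) {ω : ι → Finset Γ}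
    (hω : ∀ i, ∀ g ∈ ω i, B i g) {i : ι} {g : Γ} (hg : B i g) : g ∈ un ω ↔ g ∈ ω i := by
  rw [← filter_un hB hω i, mem_filter]; tauto

lemma Box.sh_in (h : Box q B) {ω : ι → Finset Γ} (hω : ∀ i, ∀ g ∈ ω i, B i g)
    (h0 : ∀ i, q (ω i) ≠ 0) {x : Finset Γ} {i : ι} (hx : ∀ g ∈ x, B i g) :
    sh q (un ω) x = sh q (ω i) x := by
  rw [h.sh_un hω fun g hg => ⟨i, hx g hg⟩, prod_eq_single i, filter_true_of_mem hx, Gas.sh]
  · intro j _ hj
    rw [filter_false_of_mem fun g hg hb => hj (h.uniq _ _ g hb (hx g hg)), union_empty,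
      div_self (h0 j)]
  · simp

lemma Box.sh_two (h : Box q B) {ω : ι → Finset Γ} (hω : ∀ i, ∀ g ∈ ω i, B i g)
    (h0 : ∀ i, q (ω i) ≠ 0) {i j : ι} (hij : i ≠ j) {g g' : Γ} (hg : B i g) (hg' : B j g') :
    sh q (un ω) {g, g'} = sh q (ω i) {g} * sh q (ω j) {g'} := by
  have e1 : ({g, g'} : Finset Γ).filter (B i) = {g} := by
    ext x; simp only [mem_filter, mem_insert, mem_singleton]
    exact ⟨fun ⟨h1, h2⟩ => h1.elim id fun e => absurd (h.uniq _ _ _ (e ▸ h2) hg') hij,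
      fun e => ⟨Or.inl e, e ▸ hg⟩⟩
  have e2 : ({g, g'} : Finset Γ).filter (B j) = {g'} := by
    ext x; simp only [mem_filter, mem_insert, mem_singleton]
    exact ⟨fun ⟨h1, h2⟩ => h1.elim (fun e => absurd (h.uniq _ _ _ hg (e ▸ h2)) hij) id,
      fun e => ⟨Or.inr e, e ▸ hg'⟩⟩
  rw [h.sh_un hω (by simpa using ⟨⟨i, hg⟩, ⟨j, hg'⟩⟩), prod_eq_mul i j hij, e1, e2, Gas.sh, Gas.sh]
  · intro k _ hk
    rw [filter_false_of_mem, union_empty, div_self (h0 k)]
    intro x hx hb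
    rcases mem_insert.1 hx with rfl | hx
    · exact hk.1 (h.uniq _ _ _ hb hg)
    · exact hk.2 (h.uniq _ _ _ hb (mem_singleton.1 hx ▸ hg'))
  · simp
  · simp

lemma pm_supp {ω : ι → Finset Γ} (h : pm (fun i => nu q (on (B i) u)) ω ≠ 0) :
    (∀ i, ∀ g ∈ ω i, B i g) ∧ ∀ i, q (ω i) ≠ 0 := by
  have h1 : ∀ i, nu q (on (B i) u) (ω i) ≠ 0 := fun i => prod_ne_zero_iff.1 h i (mem_univ i)
  refine ⟨fun i g hg => ?_, fun i => (nu_supp (h1 i)).1⟩
  by_contra hb
  exact (nu_supp (h1 i)).2 g hg (if_neg hb)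

variable (h : Box q B) (hu : ∀ g, 0 ≤ u g) (hs : ∀ g, u g ≠ 0 → ∃ i, B i g)
include h hu hs

lemma Box.P1_eq {i : ι} {g : Γ} (hg : B i g) : P1 q u g = P1 q (on (B i) u) g := by
  have hν := fun i => pr_nu h.cpt (on_nn (Q := B i) hu)
  rw [P1, ex_prod h.uniq hs h.prod, P1, ← ex_pm_one hν i]
  refine ex_congr fun ω hω => ?_
  obtain ⟨h1, h2⟩ := pm_supp hω
  simp only [up, mem_un_iff h.uniq h1 hg]
  rw [h.sh_in h1 h2 (i := i) (by simpa using hg)]

lemma Box.P2_in {i : ι} {g g' : Γ} (hg : B i g) (hg' : B i g') :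
    P2 q u g g' = P2 q (on (B i) u) g g' := by
  have hν := fun i => pr_nu h.cpt (on_nn (Q := B i) hu)
  rw [P2, ex_prod h.uniq hs h.prod, P2, ← ex_pm_one hν i]
  refine ex_congr fun ω hω => ?_
  obtain ⟨h1, h2⟩ := pm_supp hω
  simp only [up2, mem_un_iff h.uniq h1 hg, mem_un_iff h.uniq h1 hg']
  rw [h.sh_in h1 h2 (i := i) (by simpa using ⟨hg, hg'⟩)]

lemma Box.P2_out {i j : ι} (hij : i ≠ j) {g g' : Γ} (hg : B i g) (hg' : B j g') :
    P2 q u g g' = P1 q u g * P1 q u g' := by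
  have hν := fun i => pr_nu h.cpt (on_nn (Q := B i) hu)
  rw [h.P1_eq hu hs hg, h.P1_eq hu hs hg', P2, ex_prod h.uniq hs h.prod, P1, P1,
    ← ex_pm_two hν hij]
  refine ex_congr fun ω hω => ?_
  obtain ⟨h1, h2⟩ := pm_supp hω
  simp only [up2, up, mem_un_iff h.uniq h1 hg, mem_un_iff h.uniq h1 hg']
  rw [h.sh_two h1 h2 hij hg hg']
  by_cases a1 : g ∈ ω i <;> by_cases a2 : g' ∈ ω j <;> simp [a1, a2]

/-- **additivity.** -/
theorem Box.tkt {S : Γ → Prop} {κ : ℝ} (hD : ∀ g, D g ≠ 0 → ∃ i, B i g)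
    (H : ∀ i, TKt q (on (B i) u) (on (B i) D) S κ) : TKt q u D S κ := fun a ha => by
  have one : ∀ (g : Γ) (c : ℝ), D g ≠ 0 → ∑ i, (if B i g then c else 0) = c := fun g c hg => by
    obtain ⟨i, hi⟩ := hD g hg
    rw [sum_eq_single i, if_pos hi]
    · exact fun j _ hj => if_neg fun hb => hj (h.uniq _ _ _ hb hi)
    · simp
  have e1 : Nm q u (fun g => a g ^ 2 * D g) =
      ∑ i, Nm q (on (B i) u) fun g => a g ^ 2 * on (B i) D g := by
    simp only [Nm_eq]; rw [sum_comm]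
    refine sum_congr rfl fun g _ => ?_
    by_cases hg : D g = 0
    · simp [on, hg]
    rw [← one g (a g ^ 2 * D g * P1 q u g) hg]
    refine sum_congr rfl fun i _ => ?_
    by_cases hb : B i g
    · rw [if_pos hb, h.P1_eq hu hs hb, on, if_pos hb]
    · simp [on, hb]
  have e2 : Bf q u (fun g => a g * D g) (fun g => a g * D g) =
      ∑ i, Bf q (on (B i) u) (fun g => a g * on (B i) D g) fun g => a g * on (B i) D g := by
    unfold Bf; rw [sum_comm (s := univ (α := ι))]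
    refine sum_congr rfl fun g _ => ?_
    rw [sum_comm]
    refine sum_congr rfl fun g' _ => ?_
    by_cases hg : D g = 0
    · simp [on, hg]
    by_cases hg' : D g' = 0
    · simp [on, hg']
    obtain ⟨i, hi⟩ := hD g hg
    rw [sum_eq_single i]
    · by_cases hb : B i g'
      · simp only [on, if_pos hi, if_pos hb]
        rw [h.P2_in hu hs hi hb, h.P1_eq hu hs hi, h.P1_eq hu hs hb]
      · obtain ⟨j, hj⟩ := hD g' hg'
        rw [h.P2_out hu hs (i := i) (j := j) (fun e => hb (by rw [e]; exact hj)) hi hj]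
        simp [on, hb]
    · intro j _ hj
      have : ¬ B j g := fun hb => hj (h.uniq _ _ _ hb hi)
      simp [on, this]
    · simp
  have e3 : ∑ g, (a g * D g) ^ 2 * P1 q u g ^ 2 =
      ∑ i, ∑ g, (a g * on (B i) D g) ^ 2 * P1 q (on (B i) u) g ^ 2 := by
    rw [sum_comm]
    refine sum_congr rfl fun g _ => ?_
    by_cases hg : D g = 0
    · simp [on, hg]
    rw [← one g ((a g * D g) ^ 2 * P1 q u g ^ 2) hg]
    refine sum_congr rfl fun i _ => ?_
    by_cases hb : B i g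
    · rw [if_pos hb, h.P1_eq hu hs hb, on, if_pos hb]
    · simp [on, hb]
  rw [e1, e2, e3, mul_sum, ← sum_add_distrib]
  exact sum_le_sum fun i _ => H i a ha

end Crest.Agent.N337.Pc
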