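import Crest.Agent.N337.Pc.Defs

/-!
# Row 337, block (c): forms of the Turán–Kubilius bound (helper78)
-/

set_option autoImplicit false
set_option linter.unusedSectionVars false

namespace Crest.Agent.N337.Pc

open Finset Crest.Agent.N337.Op Crest.Agent.N337.Gas

variable {Γ : Type} [Fintype Γ] [DecidableEq Γ] {q : Finset Γ → ℝ} {u D : Γ → ℝ}

lemma ex_sum' {Ω ι : Type} [Fintype Ω] (μ : Ω → ℝ) (s : Finset ι) (f : ι → Ω → ℝ) :
    ex μ (fun ω => ∑ i ∈ s, f i ω) = ∑ i ∈ s, ex μ (f i) := by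
  simp only [ex, mul_sum]; rw [sum_comm]

lemma up_nn (hq : Cpt q) (w : Finset Γ) (g : Γ) : 0 ≤ up q w g := by
  unfold up; split_ifs; exacts [le_rfl, div_nonneg (hq.nn _) (hq.nn _)]

lemma up2_nn (hq : Cpt q) (w : Finset Γ) (g g' : Γ) : 0 ≤ up2 q w g g' := by
  unfold up2; split_ifs; exacts [le_rfl, div_nonneg (hq.nn _) (hq.nn _)]

lemma up_le_one (hq : Cpt q) (w : Finset Γ) (g : Γ) : up q w g ≤ 1 := by
  unfold up; split_ifs
  · exact zero_le_one
  · exact div_le_one_of_le₀ (hq.anti _ _ subset_union_left) (hq.nn _)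

lemma up2_comm (q : Finset Γ → ℝ) (w : Finset Γ) (g g' : Γ) : up2 q w g g' = up2 q w g' g := by
  unfold up2; rw [pair_comm]; simp only [or_comm]

lemma P1_nn (hq : Cpt q) (hu : ∀ g, 0 ≤ u g) (g : Γ) : 0 ≤ P1 q u g :=
  ex_nn (nu_nn hq hu) fun w => up_nn hq w g

lemma P2_nn (hq : Cpt q) (hu : ∀ g, 0 ≤ u g) (g g' : Γ) : 0 ≤ P2 q u g g' :=
  ex_nn (nu_nn hq hu) fun w => up2_nn hq w g g'

lemma P2_comm (q : Finset Γ → ℝ) (u : Γ → ℝ) (g g' : Γ) : P2 q u g g' = P2 q u g' g := by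
  unfold P2; simp only [up2_comm q _ g g']

lemma Nm_eq (q : Finset Γ → ℝ) (u c : Γ → ℝ) : Nm q u c = ∑ g, c g * P1 q u g := by
  unfold Nm Phb P1; rw [ex_sum']; exact sum_congr rfl fun g _ => ex_mul _ _

lemma Nm_nn (hq : Cpt q) (hu : ∀ g, 0 ≤ u g) {c : Γ → ℝ} (hc : ∀ g, 0 ≤ c g) : 0 ≤ Nm q u c := by
  rw [Nm_eq]; exact sum_nonneg fun g _ => mul_nonneg (hc g) (P1_nn hq hu g)

lemma Nm_mono (hq : Cpt q) (hu : ∀ g, 0 ≤ u g) {c c' : Γ → ℝ} (hc : ∀ g, c g ≤ c' g) :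
    Nm q u c ≤ Nm q u c' := by
  rw [Nm_eq, Nm_eq]
  exact sum_le_sum fun g _ => mul_le_mul_of_nonneg_right (hc g) (P1_nn hq hu g)

lemma sq_sum_split (x : Γ → ℝ) :
    (∑ g, x g) ^ 2 = ∑ g, x g ^ 2 + ∑ g, ∑ g' ∈ univ.erase g, x g * x g' := by
  rw [sq, sum_mul_sum, ← sum_add_distrib]
  refine sum_congr rfl fun g _ => ?_
  rw [← add_sum_erase _ _ (mem_univ g), sq]

/-- the three forms. -/
lemma Bf_eq (hq : Cpt q) (hu : ∀ g, 0 ≤ u g) (al : Γ → ℝ) :
    Bf q u al al + ∑ g, al g ^ 2 * (ex (nu q u) (fun w => up q w g ^ 2) - P1 q u g ^ 2) =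
      ex (nu q u) (Off q al) + var (nu q u) (Phb q al) := by
  have h1 : ex (nu q u) (Off q al) = ∑ g, ∑ g' ∈ univ.erase g, al g * al g' *
      (P2 q u g g' - ex (nu q u) fun w => up q w g * up q w g') := by
    unfold Off; rw [ex_sum']; refine sum_congr rfl fun g _ => ?_
    rw [ex_sum']; refine sum_congr rfl fun g' _ => ?_
    rw [ex_mul, ex_sub]; rfl
  have h2 : nsq (nu q u) (Phb q al) = ∑ g, al g ^ 2 * ex (nu q u) (fun w => up q w g ^ 2) +
      ∑ g, ∑ g' ∈ univ.erase g, al g * al g' * ex (nu q u) fun w => up q w g * up q w g' := by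
    rw [nsq_eq_ex]; unfold Phb; simp only [sq_sum_split]
    rw [ex_add, ex_sum', ex_sum']
    congr 1
    · exact sum_congr rfl fun g _ => by rw [← ex_mul]; congr 1; funext w; ring
    · refine sum_congr rfl fun g _ => ?_
      rw [ex_sum']
      exact sum_congr rfl fun g' _ => by rw [← ex_mul]; congr 1; funext w; ring
  have h3 : ex (nu q u) (Phb q al) ^ 2 = ∑ g, al g ^ 2 * P1 q u g ^ 2 +
      ∑ g, ∑ g' ∈ univ.erase g, al g * al g' * (P1 q u g * P1 q u g') := by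
    have := Nm_eq q u al
    unfold Nm at this
    rw [this, sq_sum_split]
    congr 1
    · exact sum_congr rfl fun g _ => by ring
    · exact sum_congr rfl fun g _ => sum_congr rfl fun g' _ => by ring
  rw [(pr_nu hq hu).var_eq, h1, h2, h3]
  unfold Bf
  simp only [mul_sub, sum_sub_distrib]
  ring

theorem TK.tkt {S : Γ → Prop} {κ : ℝ} (hq : Cpt q) (hu : ∀ g, 0 ≤ u g) (h : TK q u D S κ) :
    TKt q u D S (2 * κ) := fun a ha => by
  have h1 := Bf_eq hq hu fun g => a g * D g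
  simp only [mul_sub, sum_sub_distrib] at h1
  linarith [h.a a ha, h.b a ha]

theorem TK.tkb {S : Γ → Prop} {κ : ℝ} (h : TK q u D S κ) : TKb q u D S κ := h.b

lemma TKt.mono {S S' : Γ → Prop} {κ κ' : ℝ} (hq : Cpt q) (hu : ∀ g, 0 ≤ u g) (hD : ∀ g, 0 ≤ D g)
    (h : TKt q u D S κ) (hS : ∀ g, S' g → S g) (hκ : κ ≤ κ') : TKt q u D S' κ' := fun a ha =>
  (h a fun g hg => hS g (ha g hg)).trans (add_le_add le_rfl (mul_le_mul_of_nonneg_right hκ
    (Nm_nn hq hu fun g => mul_nonneg (sq_nonneg _) (hD g))))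

lemma TKb.mono {S S' : Γ → Prop} {κ κ' : ℝ} (hq : Cpt q) (hu : ∀ g, 0 ≤ u g) (hD : ∀ g, 0 ≤ D g)
    (h : TKb q u D S κ) (hS : ∀ g, S' g → S g) (hκ : κ ≤ κ') : TKb q u D S' κ' := fun a ha =>
  (h a fun g hg => hS g (ha g hg)).trans (mul_le_mul_of_nonneg_right hκ
    (Nm_nn hq hu fun g => mul_nonneg (sq_nonneg _) (hD g)))

/-- tests may be assumed to vanish where `D` vanishes. -/
lemma TKt.of_ne {S : Γ → Prop} {κ : ℝ} (h : TKt q u D (fun g => S g ∧ D g ≠ 0) κ) :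
    TKt q u D S κ := fun a ha => by
  classical
  have := h (fun g => if D g = 0 then 0 else a g) fun g hg => by
    by_cases h0 : D g = 0
    · simp [h0] at hg
    · exact ⟨ha g (by simpa [h0] using hg), h0⟩
  have e1 : ∀ g, (if D g = 0 then 0 else a g) * D g = a g * D g := fun g => by
    split_ifs with h0 <;> simp [*]
  have e2 : ∀ g, (if D g = 0 then 0 else a g) ^ 2 * D g = a g ^ 2 * D g := fun g => by
    split_ifs with h0 <;> simp [*]
  simpa only [e1, e2] using this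

lemma TK.of_ne {S : Γ → Prop} {κ : ℝ} (h : TK q u D (fun g => S g ∧ D g ≠ 0) κ) :
    TK q u D S κ := by
  classical
  have key : ∀ a : Γ → ℝ, (∀ g, a g ≠ 0 → S g) → ∃ a' : Γ → ℝ, (∀ g, a' g ≠ 0 → S g ∧ D g ≠ 0) ∧
      (∀ g, a' g * D g = a g * D g) ∧ ∀ g, a' g ^ 2 * D g = a g ^ 2 * D g := fun a ha => by
    refine ⟨fun g => if D g = 0 then 0 else a g, fun g hg => ?_, fun g => ?_, fun g => ?_⟩
    · by_cases h0 : D g = 0
      · simp [h0] at hg
      · exact ⟨ha g (by simpa [h0] using hg), h0⟩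
    · dsimp only; split_ifs with h0 <;> simp [*]
    · dsimp only; split_ifs with h0 <;> simp [*]
  constructor
  · intro a ha; obtain ⟨a', h1, h2, h3⟩ := key a ha; simpa only [h2, h3] using h.a a' h1
  · intro a ha; obtain ⟨a', h1, h2, h3⟩ := key a ha; simpa only [h2, h3] using h.b a' h1

/-! ### weights that come from a random set -/

/-- `q` is the compatibility weight of a random set with at most `n` elements in `Q`. -/
def Rep (q : Finset Γ → ℝ) (Q : Finset Γ) (n : ℕ) : Prop :=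
  ∃ l : Finset Γ → ℝ, Pr l ∧ (∀ X, l X ≠ 0 → (X ∩ Q).card ≤ n) ∧ q = qP l id

variable {Q : Finset Γ}

lemma rep_qP {Ξ : Type} [Fintype Ξ] {P : Ξ → ℝ} (hP : Pr P) (L : Ξ → Finset Γ) {n : ℕ}
    (hn : ∀ ξ, (L ξ ∩ Q).card ≤ n) : Rep (qP P L) Q n := by
  classical
  refine ⟨mass P L, pr_mass hP L, fun X hX => ?_, funext fun A => ?_⟩
  · obtain ⟨ξ, -, h⟩ := exists_ne_zero_of_sum_ne_zero hX
    have : L ξ = X := by by_contra h'; simp [h'] at h
    exact this ▸ hn ξ
  · exact (ex_mass P L fun X => if A ⊆ X then 1 else 0).symm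

lemma cpt_qP {Ξ : Type} [Fintype Ξ] {P : Ξ → ℝ} (hP : Pr P) (L : Ξ → Finset Γ) :
    Cpt (qP P L) where
  nn A := sum_nonneg fun ξ _ => mul_nonneg (hP.nn ξ) (by split_ifs <;> norm_num)
  empty := by simp [qP, hP.one]
  anti A B h := sum_le_sum fun ξ _ => mul_le_mul_of_nonneg_left (by
    by_cases hB : B ⊆ L ξ
    · simp [hB, h.trans hB]
    · rw [if_neg hB]; split_ifs <;> norm_num) (hP.nn ξ)

lemma Rep.cpt {n : ℕ} (h : Rep q Q n) : Cpt q := by
  obtain ⟨l, hl, -, rfl⟩ := h; exact cpt_qP hl id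

lemma Rep.sh {n : ℕ} (h : Rep q Q n) {x : Finset Γ} (hx : q x ≠ 0) : Rep (sh q x) Q n := by
  obtain ⟨l, hl, hn, rfl⟩ := h
  refine ⟨fun X => (l X * if x ⊆ X then 1 else 0) / qP l id x, ⟨fun X => div_nonneg
    (mul_nonneg (hl.nn X) (by split_ifs <;> norm_num)) ((cpt_qP hl id).nn x), ?_⟩,
    fun X hX => hn X fun h0 => hX (by simp [h0]), funext fun A => ?_⟩
  · rw [← sum_div]; exact div_self hx
  · unfold Gas.sh
    rw [qP, qP, qP, sum_div]
    refine sum_congr rfl fun X _ => ?_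
    simp only [id, union_subset_iff, qP]
    by_cases h1 : x ⊆ X <;> by_cases h2 : A ⊆ X <;> simp [h1, h2]

lemma rep_one {l : Finset Γ → ℝ} (g : Γ) :
    qP l id {g} = ex l fun X => if g ∈ X then 1 else 0 := by
  simp [qP, ex]

lemma rep_two {l : Finset Γ → ℝ} (g g' : Γ) :
    qP l id {g, g'} = ex l fun X => (if g ∈ X then 1 else 0) * if g' ∈ X then 1 else 0 := by
  unfold qP ex
  refine sum_congr rfl fun X _ => ?_
  by_cases h1 : g ∈ X <;> by_cases h2 : g' ∈ X <;> simp [h1, h2, insert_subset_iff]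

/-- the conditional covariance form is nonnegative. -/
lemma Rep.psd {n : ℕ} (h : Rep q Q n) {w : Finset Γ} (hw : q w ≠ 0) (al : Γ → ℝ) :
    0 ≤ Off q al w + ∑ g, al g ^ 2 * (up q w g - up q w g ^ 2) := by
  obtain ⟨l, hl, -, e⟩ := h.sh hw
  set I : Γ → Finset Γ → ℝ := fun g X => if g ∈ w then 0 else if g ∈ X then 1 else 0 with hI
  have h1 : ∀ g, up q w g = ex l (I g) := fun g => by
    unfold up; rw [e, rep_one]; simp only [hI]; split_ifs <;> simp [ex]
  have h2 : ∀ g g', up2 q w g g' = ex l fun X => I g X * I g' X := fun g g' => by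
    unfold up2; rw [e, rep_two]; simp only [hI]
    by_cases hg : g ∈ w <;> by_cases hg' : g' ∈ w <;> simp [hg, hg', ex]
  have h3 : ∀ g X, I g X ^ 2 = I g X := fun g X => by simp only [hI]; split_ifs <;> norm_num
  have h4 := var_nn hl.nn fun X => ∑ g, al g * I g X
  rw [hl.var_eq, nsq_eq_ex, ex_sum', sq_sum_split] at h4
  simp only [sq_sum_split] at h4
  rw [ex_add, ex_sum', ex_sum'] at h4
  have e1 : ∀ g, ex l (fun X => (al g * I g X) ^ 2) = al g ^ 2 * up q w g := fun g => by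
    rw [h1, ← ex_mul]; congr 1; funext X; rw [mul_pow, h3]
  have e2 : ∀ g, ex l (fun X => ∑ g' ∈ univ.erase g, al g * I g X * (al g' * I g' X)) =
      ∑ g' ∈ univ.erase g, al g * al g' * up2 q w g g' := fun g => by
    rw [ex_sum']
    exact sum_congr rfl fun g' _ => by rw [h2, ← ex_mul]; congr 1; funext X; ring
  have e3 : ∀ g, ex l (fun X => al g * I g X) = al g * up q w g := fun g => by rw [ex_mul, h1]
  simp only [e1, e2, e3] at h4
  unfold Off
  have e4 : ∑ g, ∑ g' ∈ univ.erase g, al g * up q w g * (al g' * up q w g') =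
      ∑ g, ∑ g' ∈ univ.erase g, al g * al g' * (up q w g * up q w g') :=
    sum_congr rfl fun g _ => sum_congr rfl fun g' _ => by ring
  have e5 : ∑ g, (al g * up q w g) ^ 2 = ∑ g, al g ^ 2 * up q w g ^ 2 :=
    sum_congr rfl fun g _ => by ring
  rw [e4, e5] at h4
  simp only [mul_sub, sum_sub_distrib]
  linarith

/-- the response form is free with constant `1 + κ`. -/
theorem TKt.tkb {S : Γ → Prop} {κ : ℝ} {n : ℕ} (hq : Rep q Q n) (hu : ∀ g, 0 ≤ u g)
    (hD : ∀ g, 0 ≤ D g ∧ D g ≤ 1) (h : TKt q u D S κ) : TKb q u D S (1 + κ) := fun a ha => by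
  have hc := hq.cpt
  have h1 := Bf_eq hc hu fun g => a g * D g
  have h2 : 0 ≤ ex (nu q u) fun w => Off q (fun g => a g * D g) w +
      ∑ g, (a g * D g) ^ 2 * (up q w g - up q w g ^ 2) := by
    rw [← (pr_nu hc hu).ex_const 0]
    exact ex_mono_ae (nu_nn hc hu) fun w hw => hq.psd (nu_supp hw).1 _
  rw [ex_add, ex_sum'] at h2
  have e : ∀ g, ex (nu q u) (fun w => (a g * D g) ^ 2 * (up q w g - up q w g ^ 2)) =
      (a g * D g) ^ 2 * (P1 q u g - ex (nu q u) fun w => up q w g ^ 2) := fun g => by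
    rw [ex_mul, ex_sub]; rfl
  simp only [e] at h2
  have h3 : ∑ g, (a g * D g) ^ 2 * (ex (nu q u) (fun w => up q w g ^ 2) - P1 q u g ^ 2) +
      ∑ g, (a g * D g) ^ 2 * (P1 q u g - ex (nu q u) fun w => up q w g ^ 2) +
      ∑ g, (a g * D g) ^ 2 * P1 q u g ^ 2 ≤ Nm q u fun g => a g ^ 2 * D g := by
    rw [Nm_eq, ← sum_add_distrib, ← sum_add_distrib]
    refine sum_le_sum fun g _ => ?_
    have h5 := P1_nn hc hu g
    have h6 : 0 ≤ a g ^ 2 * D g * (1 - D g) * P1 q u g :=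
      mul_nonneg (mul_nonneg (mul_nonneg (sq_nonneg _) (hD g).1) (sub_nonneg.2 (hD g).2)) h5
    nlinarith
  have h4 := h a ha
  have h7 : ex (nu q u) (fun w => Off q (fun g => a g * D g) w) =
    ex (nu q u) (Off q fun g => a g * D g) := rfl
  linarith

/-- the total rate is at most the size of the random set. -/
lemma Rep.sum_up_le {n : ℕ} (h : Rep q Q n) {w : Finset Γ} (hw : q w ≠ 0) :
    ∑ g ∈ Q, up q w g ≤ n := by
  obtain ⟨l, hl, hn, e⟩ := h.sh hw
  calc ∑ g ∈ Q, up q w g ≤ ∑ g ∈ Q, ex l fun X => if g ∈ X then 1 else 0 := sum_le_sum fun g _ => by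
        unfold up; rw [e, rep_one]; split_ifs
        · exact ex_nn hl.nn fun X => by split_ifs <;> norm_num
        · exact le_rfl
    _ = ex l fun X => ((X ∩ Q).card : ℝ) := by rw [← ex_sum']; simp [inter_comm]
    _ ≤ ex l fun _ => (n : ℝ) := ex_mono_ae hl.nn fun X hX => by exact_mod_cast hn X hX
    _ = n := hl.ex_const _

lemma Rep.sum_up2_le {n : ℕ} (h : Rep q Q n) {w : Finset Γ} (hw : q w ≠ 0) (g : Γ) :
    ∑ g' ∈ Q, up2 q w g g' ≤ n * up q w g := by
  obtain ⟨l, hl, hn, e⟩ := h.sh hw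
  by_cases hg : g ∈ w
  · simp [up2, up, hg]
  calc ∑ g' ∈ Q, up2 q w g g' ≤
        ∑ g' ∈ Q, ex l fun X => (if g ∈ X then 1 else 0) * if g' ∈ X then 1 else 0 :=
        sum_le_sum fun g' _ => by
          unfold up2; rw [e, rep_two]; split_ifs
          · exact ex_nn hl.nn fun X => by split_ifs <;> norm_num
          · exact le_rfl
    _ = ex l fun X => ((X ∩ Q).card : ℝ) * if g ∈ X then 1 else 0 := by
        rw [← ex_sum']; congr 1; funext X; rw [← mul_sum, mul_comm]; simp [inter_comm]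
    _ ≤ ex l fun X => (n : ℝ) * if g ∈ X then 1 else 0 := ex_mono_ae hl.nn fun X hX =>
        mul_le_mul_of_nonneg_right (by exact_mod_cast hn X hX) (by split_ifs <;> norm_num)
    _ = n * up q w g := by rw [ex_mul, up, if_neg hg, e, rep_one]

lemma Rep.sum_P1_le {n : ℕ} (h : Rep q Q n) (hu : ∀ g, 0 ≤ u g) : ∑ g ∈ Q, P1 q u g ≤ n := by
  unfold P1; rw [← ex_sum', ← (pr_nu h.cpt hu).ex_const n]
  exact ex_mono_ae (nu_nn h.cpt hu) fun w hw => h.sum_up_le (nu_supp hw).1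

lemma Rep.sum_P2_le {n : ℕ} (h : Rep q Q n) (hu : ∀ g, 0 ≤ u g) (g : Γ) :
    ∑ g' ∈ Q, P2 q u g g' ≤ n * P1 q u g := by
  unfold P2 P1; rw [← ex_sum', ← ex_mul]
  exact ex_mono_ae (nu_nn h.cpt hu) fun w hw => h.sum_up2_le (nu_supp hw).1 g

/-! ### the law of the medium given an up loop -/

lemma sum_up (hq : Cpt q) (g : Γ) (f : Finset Γ → ℝ) :
    ∑ w, gw q u w * (up q w g * f w) = q {g} * ∑ w, gw (sh q {g}) (off (· ∈ ({g} : Finset Γ)) u) w * f w := by
  rw [mul_sum]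
  refine sum_congr rfl fun w _ => ?_
  by_cases hg : g ∈ w
  · have : ∏ x ∈ w, off (· ∈ ({g} : Finset Γ)) u x = 0 := prod_eq_zero hg (by simp [off])
    rw [up, if_pos hg, gw, gw, this]; simp
  have e : ∏ x ∈ w, off (· ∈ ({g} : Finset Γ)) u x = ∏ x ∈ w, u x :=
    prod_congr rfl fun x hx => by
      have : x ≠ g := fun e => hg (e ▸ hx)
      simp [off, this]
  simp only [up, if_neg hg, gw, e, Gas.sh, union_comm w]
  by_cases h0 : q ({g} ∪ w) = 0
  · rw [h0]; simp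
  have h1 := hq.ne_of_sub subset_union_left h0
  have h2 := hq.ne_of_sub subset_union_right h0
  field_simp

/-- **the medium given that `g` is an up loop** is `med q u {g}`. -/
theorem ex_up (hq : Cpt q) (hu : ∀ g, 0 ≤ u g) (g : Γ) (f : Finset Γ → ℝ) :
    ex (nu q u) (fun w => up q w g * f w) = P1 q u g * ex (med q u {g}) f := by
  by_cases h0 : q {g} = 0
  · have h := sum_up (u := u) hq g
    simp only [h0, zero_mul] at h
    have h1 := h fun _ => 1
    simp only [mul_one] at h1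
    rw [P1, ex_nu, ex_nu, h, h1]; simp
  have h1 := sum_up (u := u) hq g fun _ => 1
  simp only [mul_one] at h1
  have hz := (gZ_pos (hq.sh h0) (off_nn (Q := (· ∈ ({g} : Finset Γ))) hu)).ne'
  rw [P1, ex_nu, ex_nu, med, ex_nu, sum_up hq, h1]
  change _ = q {g} * gZ _ _ / _ * _
  field_simp

lemma up2_eq (hq : Cpt q) {g g' : Γ} (w : Finset Γ) :
    up2 q w g g' = up q w g * up (sh q {g}) w g' := by
  unfold up2 up
  by_cases hg : g ∈ w
  · simp [hg]
  by_cases hg' : g' ∈ w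
  · simp [hg']
  simp only [hg, hg', or_self, if_false, Gas.sh]
  have e : ({g} : Finset Γ) ∪ (w ∪ {g'}) = w ∪ {g, g'} := by
    ext x; simp only [mem_union, mem_singleton, mem_insert]; tauto
  rw [e, union_comm {g} w]
  by_cases h0 : q (w ∪ {g, g'}) = 0
  · rw [h0]; simp
  have hs : w ∪ {g} ⊆ w ∪ {g, g'} := union_subset_union_right (by simp)
  have h1 := hq.ne_of_sub hs h0
  have h2 := hq.ne_of_sub subset_union_right h1
  have h3 := hq.ne_of_sub subset_union_left h1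
  field_simp

lemma P2_eq (hq : Cpt q) (hu : ∀ g, 0 ≤ u g) (g g' : Γ) :
    P2 q u g g' = P1 q u g * P1 (sh q {g}) (off (· ∈ ({g} : Finset Γ)) u) g' := by
  unfold P2; simp only [up2_eq hq]; rw [ex_up hq hu]; rfl

end Crest.Agent.N337.Pc
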